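import Mathlib

/-!
# Row 103 (analysis half): the abstract energy inequality
-/

set_option autoImplicit false
set_option linter.unusedSectionVars false
open MeasureTheory Filter Topology

noncomputable section

namespace Crest.Agent.R103A

theorem Seq_tendsto {f : ℤ → ℝ} {c : ℝ} (h0 : ∀ n, 0 ≤ f n) (h : ∀ S : Finset ℤ, ∑ n ∈ S, f n ≤ c)
    (n : ℤ) : Tendsto (fun M : ℕ => f (n - M)) atTop (𝓝 0) := by
  have h1 := (summable_of_sum_le h0 h).tendsto_cofinite_zero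
  have h2 : Function.Injective fun M : ℕ => n - (M : ℤ) := by
    intro a b hab
    simpa using hab
  rw [← Nat.cofinite_eq_atTop]
  exact h1.comp h2.tendsto_cofinite

theorem Seq_sum_le {f : ℤ → ℝ} {c : ℝ} (h : ∀ S : Finset ℤ, ∑ n ∈ S, f n ≤ c) {g : ℕ → ℤ}
    (hg : Function.Injective g) (M : ℕ) : ∑ k ∈ Finset.range M, f (g k) ≤ c := by
  rw [← Finset.sum_image (f := f) (fun a _ b _ hab => hg hab)]
  exact h _

theorem Seq_convex {a : ℤ → ℝ} {d : ℝ} (h : ∀ m, -d ≤ a (m + 1) + a (m - 1) - 2 * a m) (n : ℤ)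
    (j : ℕ) : 2 * a n ≤ a (n + j) + a (n - j) + (j : ℝ) ^ 2 * d := by
  have key : ∀ j : ℕ, -((2 * j + 1) * d) ≤
      a (n + j + 1) + a (n - j - 1) - (a (n + j) + a (n - j)) := by
    intro j
    induction j with
    | zero => have := h n; simp only [Nat.cast_zero, add_zero, sub_zero]; linarith
    | succ j ih =>
      have h1 := h (n + j + 1)
      have h2 := h (n - j - 1)
      rw [add_sub_cancel_right] at h1
      rw [sub_add_cancel] at h2
      push_cast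
      rw [← add_assoc, ← sub_sub n]
      linarith
  induction j with
  | zero => simp [two_mul]
  | succ j ih =>
    have := key j
    push_cast
    rw [← add_assoc, ← sub_sub]
    linarith

/-- Put `a n = ‖A n‖²`, `E n = A (n-1) + B (n+1) - Z n`, `Y n = B (n+1) - A (n-1)`,
`J n = ⟪B (n+1), Z n⟫`, `δ = ε y`.
* `a (n+1) - a (n-1) = ⟪Z n + E n, Y n⟫ = J n - J (n-1) + ⟪E n, Y n⟫`, i.e.
  `c n = a (n+1) + a n - J n` has `c n - c (n-1) = ⟪E n, Y n⟫`.  Summing from `-M` to `n`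
  and letting `M → ∞` (`a (-M) → 0`, `J (-M) → 0` by `hA`, `hZ`; `∑ |⟪E, Y⟫| ≤ δ` by
  Cauchy–Schwarz): `|c n| ≤ δ`.
* `J n ≤ (a (n+1) + ‖Z n‖²) / 2`, so `a (n+1) ≤ ‖Z n‖² + 2 δ`.
* With `X n = A (n-1) + B (n+1)`: `‖X n‖² ≤ 2 a (n-1) + 2 a (n+1)` and
  `‖X n‖² = J n + J (n-1) + ⟪E n, X n⟫ ≥ a (n+1) + 2 a n + a (n-1) - δ'`, `δ' = 2 δ + ε (z + ε)`.
  So `a (m+1) + a (m-1) - 2 a m ≥ -δ'` for all `m`; by induction on `j`,
  `g j = a (n+j) + a (n-j)` has `g (j+1) - g j ≥ -(2 j + 1) δ'`, so `2 a n ≤ g j + j² δ'`.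
* Average over `j = 1, …, N`: `2 N a n ≤ 2 z² + 4 N δ + N³ δ'`. -/
theorem seq_bound {H : Type*} [NormedAddCommGroup H] [InnerProductSpace ℝ H] (A B Z : ℤ → H)
    {ε y z α : ℝ} (hε : 0 ≤ ε) (hy : 0 ≤ y) (hz : 0 ≤ z)
    (hAB : ∀ n, ‖A n‖ = ‖B n‖)
    (hJ : ∀ n, inner ℝ (Z n) (A (n - 1)) = inner ℝ (B n) (Z (n - 1)))
    (hE : ∀ S : Finset ℤ, ∑ n ∈ S, ‖A (n - 1) + B (n + 1) - Z n‖ ^ 2 ≤ ε ^ 2)
    (hY : ∀ S : Finset ℤ, ∑ n ∈ S, ‖B (n + 1) - A (n - 1)‖ ^ 2 ≤ y ^ 2)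
    (hZ : ∀ S : Finset ℤ, ∑ n ∈ S, ‖Z n‖ ^ 2 ≤ z ^ 2)
    (hA : ∀ S : Finset ℤ, ∑ n ∈ S, ‖A n‖ ^ 2 ≤ α) (N : ℕ) (hN : 0 < N) (n : ℤ) :
    ‖A n‖ ^ 2 ≤ z ^ 2 / N + 2 * (ε * y) + (N : ℝ) ^ 2 * (2 * (ε * y) + ε * (z + ε)) := by
  set a : ℤ → ℝ := fun n => ‖A n‖ ^ 2 with ha
  set E : ℤ → H := fun n => A (n - 1) + B (n + 1) - Z n with hEd
  set Y : ℤ → H := fun n => B (n + 1) - A (n - 1) with hYd
  set J : ℤ → ℝ := fun n => inner ℝ (B (n + 1)) (Z n) with hJd
  set c : ℤ → ℝ := fun n => a (n + 1) + a n - J n with hc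
  have a0 : ∀ n, 0 ≤ a n := fun n => sq_nonneg _
  have aA : ∀ n, inner ℝ (A n) (A n) = a n := fun n => real_inner_self_eq_norm_sq _
  have aB : ∀ n, inner ℝ (B n) (B n) = a n := fun n => by
    rw [real_inner_self_eq_norm_sq, ← hAB]
  have J1 : ∀ n, inner ℝ (Z n) (A (n - 1)) = J (n - 1) := fun n => by
    rw [hJ, hJd]; simp only [sub_add_cancel]
  have J2 : ∀ n, inner ℝ (Z n) (B (n + 1)) = J n := fun n => real_inner_comm _ _
  have cd : ∀ n, c n - c (n - 1) = inner ℝ (E n) (Y n) := by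
    intro n
    simp only [hc, hEd, hYd, sub_add_cancel, inner_sub_left, inner_sub_right, inner_add_left, aA,
      aB, J1, J2, real_inner_comm (A (n - 1)) (B (n + 1))]
    ring
  have Jle : ∀ n, |J n| ≤ (a (n + 1) + ‖Z n‖ ^ 2) / 2 := by
    intro n
    have h1 := abs_real_inner_le_norm (B (n + 1)) (Z n)
    rw [← hAB] at h1
    have h2 := sq_nonneg (‖A (n + 1)‖ - ‖Z n‖)
    simp only [hJd, ha]
    nlinarith
  have cle : ∀ n, |c n| ≤ ε * y := by
    intro n
    have tel : ∀ M : ℕ, c n = c (n - M) + ∑ k ∈ Finset.range M, inner ℝ (E (n - k)) (Y (n - k)) := by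
      intro M
      induction M with
      | zero => simp
      | succ M ih =>
        rw [Finset.sum_range_succ, ← cd (n - M)]
        push_cast
        rw [← sub_sub]
        linarith
    have hinj : Function.Injective fun k : ℕ => n - (k : ℤ) := by
      intro a b hab
      simpa using hab
    have cs : ∀ M : ℕ, |∑ k ∈ Finset.range M, inner ℝ (E (n - k)) (Y (n - k))| ≤ ε * y := by
      intro M
      have h1 : |∑ k ∈ Finset.range M, inner ℝ (E (n - k)) (Y (n - k))| ≤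
          ∑ k ∈ Finset.range M, ‖E (n - k)‖ * ‖Y (n - k)‖ :=
        (Finset.abs_sum_le_sum_abs _ _).trans
          (Finset.sum_le_sum fun k _ => abs_real_inner_le_norm _ _)
      have h2 := Finset.sum_mul_sq_le_sq_mul_sq (Finset.range M) (fun k => ‖E (n - k)‖)
        (fun k => ‖Y (n - k)‖)
      have h3 := Seq_sum_le (f := fun k => ‖E k‖ ^ 2) hE hinj M
      have h4 := Seq_sum_le (f := fun k => ‖Y k‖ ^ 2) hY hinj M
      have h5 : (∑ k ∈ Finset.range M, ‖E (n - k)‖ * ‖Y (n - k)‖) ^ 2 ≤ (ε * y) ^ 2 := by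
        rw [mul_pow]
        exact h2.trans (mul_le_mul h3 h4 (Finset.sum_nonneg fun _ _ => sq_nonneg _) (sq_nonneg _))
      exact h1.trans ((abs_le_of_sq_le_sq' h5 (by positivity)).2)
    have t1 := Seq_tendsto a0 hA (n + 1)
    have t2 := Seq_tendsto a0 hA n
    have t3 := Seq_tendsto (f := fun k => ‖Z k‖ ^ 2) (fun _ => sq_nonneg _) hZ n
    have t4 := ((t1.add t2).add ((t1.add t3).div_const 2)).add_const (ε * y)
    simp only [add_zero, zero_div, zero_add] at t4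
    refine ge_of_tendsto' t4 fun M => ?_
    have h1 := cs M
    have h2 := Jle (n - M)
    have h3 := a0 (n - M + 1)
    have h4 := a0 (n - M)
    have e : n + 1 - M = n - M + 1 := by ring
    rw [tel M, e]
    refine (abs_add_le _ _).trans (add_le_add ?_ h1)
    simp only [hc]
    rw [abs_le] at h2 ⊢
    constructor <;> linarith [h2.1, h2.2]
  have ale : ∀ n, a n ≤ ‖Z (n - 1)‖ ^ 2 + 2 * (ε * y) := by
    intro n
    have h1 := (abs_le.1 (cle (n - 1))).2
    have h2 := (abs_le.1 (Jle (n - 1))).2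
    have h3 := a0 (n - 1)
    simp only [hc, sub_add_cancel] at h1 h2
    linarith
  have conv : ∀ m, -(2 * (ε * y) + ε * (z + ε)) ≤ a (m + 1) + a (m - 1) - 2 * a m := by
    intro m
    have h1 := (abs_le.1 (cle m)).2
    have h2 := (abs_le.1 (cle (m - 1))).2
    simp only [hc, sub_add_cancel] at h1 h2
    have hEm : ‖E m‖ ≤ ε := by
      have := hE {m}
      rw [Finset.sum_singleton] at this
      exact (abs_le_of_sq_le_sq' this (by assumption)).2
    have hZm : ‖Z m‖ ≤ z := by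
      have := hZ {m}
      rw [Finset.sum_singleton] at this
      exact (abs_le_of_sq_le_sq' this (by assumption)).2
    have hX : ‖A (m - 1) + B (m + 1)‖ ≤ z + ε := by
      have : A (m - 1) + B (m + 1) = Z m + E m := by simp only [hEd]; abel
      rw [this]
      exact (norm_add_le _ _).trans (add_le_add hZm hEm)
    have h3 : |inner ℝ (E m) (A (m - 1) + B (m + 1))| ≤ ε * (z + ε) :=
      (abs_real_inner_le_norm _ _).trans (mul_le_mul hEm hX (norm_nonneg _) hε)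
    have h4 : inner ℝ (E m) (A (m - 1) + B (m + 1)) =
        a (m - 1) + a (m + 1) + 2 * inner ℝ (A (m - 1)) (B (m + 1)) - J (m - 1) - J m := by
      simp only [hEd, inner_sub_left, inner_add_left, inner_add_right, aA, aB, J1, J2,
        real_inner_comm (A (m - 1)) (B (m + 1))]
      ring
    have h5 : 0 ≤ inner ℝ (A (m - 1) - B (m + 1)) (A (m - 1) - B (m + 1)) := real_inner_self_nonneg
    simp only [inner_sub_left, inner_sub_right, aA, aB,
      real_inner_comm (A (m - 1)) (B (m + 1))] at h5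
    have h6 := (abs_le.1 h3).1
    linarith
  set d := 2 * (ε * y) + ε * (z + ε) with hd
  have d0 : 0 ≤ d := by positivity
  have hN' : (0 : ℝ) < N := by exact_mod_cast hN
  have s1 := Seq_sum_le (f := fun k => ‖Z k‖ ^ 2) hZ (g := fun j : ℕ => n + (j + 1 : ℕ) - 1)
    (by intro a b hab; simpa using hab) N
  have s2 := Seq_sum_le (f := fun k => ‖Z k‖ ^ 2) hZ (g := fun j : ℕ => n - (j + 1 : ℕ) - 1)
    (by intro a b hab; simpa using hab) N
  have s3 : ∑ _j ∈ Finset.range N, 2 * a n ≤ ∑ j ∈ Finset.range N,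
      (‖Z (n + (j + 1 : ℕ) - 1)‖ ^ 2 + ‖Z (n - (j + 1 : ℕ) - 1)‖ ^ 2 +
        (4 * (ε * y) + (N : ℝ) ^ 2 * d)) := by
    refine Finset.sum_le_sum fun j hj => ?_
    have h1 := Seq_convex conv n (j + 1)
    have h2 := ale (n + (j + 1 : ℕ))
    have h3 := ale (n - (j + 1 : ℕ))
    have h4 : ((j + 1 : ℕ) : ℝ) ≤ N := by exact_mod_cast Finset.mem_range.1 hj
    have h5 : ((j + 1 : ℕ) : ℝ) ^ 2 * d ≤ (N : ℝ) ^ 2 * d := by gcongr
    linarith
  rw [Finset.sum_add_distrib, Finset.sum_add_distrib, Finset.sum_const, Finset.sum_const,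
    Finset.card_range, nsmul_eq_mul, nsmul_eq_mul] at s3
  have h1 : a n ≤ z ^ 2 / N + 2 * (ε * y) + (N : ℝ) ^ 2 * d / 2 := by
    have e : z ^ 2 / N + 2 * (ε * y) + (N : ℝ) ^ 2 * d / 2 =
        (2 * z ^ 2 + N * (4 * (ε * y) + (N : ℝ) ^ 2 * d)) / (2 * N) := by
      field_simp; ring
    rw [e, le_div_iff₀ (by positivity)]
    linarith
  have h2 : 0 ≤ (N : ℝ) ^ 2 * d := by positivity
  change a n ≤ _
  linarith

end Crest.Agent.R103A
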