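import Crest.Agent.R103A.Proj
import Crest.Agent.R103A.Seq

/-!
# Row 103 (analysis half): the Hilbert space argument
-/

set_option autoImplicit false
set_option linter.unusedSectionVars false
open MeasureTheory Filter Topology

noncomputable section

namespace Crest.Agent.R103A

variable {H : Type*} [NormedAddCommGroup H] [InnerProductSpace ℂ H] [CompleteSpace H]

variable {X ρ W : ℝ → H →L[ℂ] H}

/-- good approximants of `U` exist -/
def Appr (X ρ W : ℝ → H →L[ℂ] H) (U : H) (z₀ : ℝ) : Prop :=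
  ∀ κ : ℝ, 0 < κ → ∃ v x y z : H, Loc X ρ v ∧ Dv X v x ∧ Dv (Dop X ρ (Real.pi / 2)) v y ∧
    Dv W v z ∧ ‖v - U‖ ≤ κ ∧ ‖z‖ ≤ z₀ ∧ ‖x + z‖ ≤ κ ∧ ‖x + z‖ * ‖y‖ ≤ κ

lemma Loc.dv_dir (hX : UG X) (hρ : UG ρ) {v x y : H} (hv : Loc X ρ v) (hx : Dv X v x)
    (hy : Dv (Dop X ρ (Real.pi / 2)) v y) (θ : ℝ) :
    Dv (Dop X ρ θ) v ((Real.cos θ : ℂ) • x + (Real.sin θ : ℂ) • y) :=
  (Dv.comp hX (hX.dop hρ _) hx hy (Real.cos θ) (Real.sin θ)).congr_of_eventuallyEq (hv.dir θ)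

lemma cos_sin_eq (α β : H) (φ : ℝ) :
    (Real.cos φ : ℂ) • (α + β) + (Real.sin φ : ℂ) • (Complex.I • (β - α)) =
      Complex.exp (-φ * Complex.I) • α + Complex.exp (φ * Complex.I) • β := by
  rw [Complex.exp_mul_I, Complex.exp_mul_I, Complex.cos_neg, Complex.sin_neg, Complex.ofReal_cos,
    Complex.ofReal_sin]
  module

lemma Loc.dv_rot_X (hX : UG X) (hρ : UG ρ) {v α β : H} (hv : Loc X ρ v) (hx : Dv X v (α + β))
    (hy : Dv (Dop X ρ (Real.pi / 2)) v (Complex.I • (β - α))) (φ : ℝ) :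
    Dv X (ρ φ v) (Complex.exp (-φ * Complex.I) • ρ φ α + Complex.exp (φ * Complex.I) • ρ φ β) := by
  have h := (hv.dv_dir hX hρ hx hy φ).map (T' := X) (ρ φ) fun t => by
    rw [Dop_apply, hρ.apply_neg]
  rw [cos_sin_eq, map_add, map_smul, map_smul] at h
  exact h

lemma Loc.dv_rot_Y (hX : UG X) (hρ : UG ρ) {v α β : H} (hv : Loc X ρ v) (hx : Dv X v (α + β))
    (hy : Dv (Dop X ρ (Real.pi / 2)) v (Complex.I • (β - α))) (φ : ℝ) :
    Dv (Dop X ρ (Real.pi / 2)) (ρ φ v) (Complex.I • (Complex.exp (φ * Complex.I) • ρ φ β -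
      Complex.exp (-φ * Complex.I) • ρ φ α)) := by
  have h := (hv.dv_dir hX hρ hx hy (φ + Real.pi / 2)).map (T' := Dop X ρ (Real.pi / 2)) (ρ φ)
    fun t => by
      rw [Dop_apply, Dop_apply, ← hρ.add, ← hρ.add, add_comm (Real.pi / 2) φ]
      congr 2
      ring
  rw [cos_sin_eq, map_add, map_smul, map_smul] at h
  have e1 : Complex.exp (-((φ + Real.pi / 2 : ℝ) : ℂ) * Complex.I) =
      -Complex.I * Complex.exp (-φ * Complex.I) := by
    rw [← Complex.exp_neg_pi_div_two_mul_I, ← Complex.exp_add]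
    congr 1
    push_cast
    ring
  have e2 : Complex.exp (((φ + Real.pi / 2 : ℝ) : ℂ) * Complex.I) =
      Complex.I * Complex.exp (φ * Complex.I) := by
    conv_rhs => rw [← Complex.exp_pi_div_two_mul_I]
    rw [Complex.exp_pi_div_two_mul_I]
    nth_rewrite 2 [← Complex.exp_pi_div_two_mul_I]
    rw [← Complex.exp_add]
    congr 1
    push_cast
    ring
  rw [e1, e2] at h
  convert h using 1
  module

/-- the mode estimate for one approximant -/
lemma mode_bound (hX : UG X) (hρ : UG ρ) (hW : UG W) (hper : ∀ v, ρ (2 * Real.pi) v = v)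
    (hWX : ∀ s t v, W s (X t v) = X t (W s v)) (hWρ : ∀ s t v, W s (ρ t v) = ρ t (W s v))
    {v α β z : H} (hv : Loc X ρ v) (hx : Dv X v (α + β))
    (hy : Dv (Dop X ρ (Real.pi / 2)) v (Complex.I • (β - α))) (hz : Dv W v z)
    {z₀ : ℝ} (hz₀ : ‖z‖ ≤ z₀) (N : ℕ) (hN : 0 < N) (n : ℤ) :
    ‖hρ.P (n + 1) α‖ = ‖hρ.P (n - 1) β‖ ∧
    ‖hρ.P (n + 1) α‖ ^ 2 ≤ z₀ ^ 2 / N + 2 * (‖α + β + z‖ * ‖β - α‖) +
      (N : ℝ) ^ 2 * (2 * (‖α + β + z‖ * ‖β - α‖) + ‖α + β + z‖ * (z₀ + ‖α + β + z‖)) := by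
  have hY := hX.dop hρ (Real.pi / 2)
  have hI : Complex.I ≠ 0 := Complex.I_ne_zero
  -- first identity
  have h1 : ∀ φ : ℝ, Complex.exp (-(((1 : ℤ) : ℂ) * φ) * Complex.I) * inner ℂ α (ρ φ α) =
      Complex.exp (-(((-1 : ℤ) : ℂ) * φ) * Complex.I) * inner ℂ β (ρ φ β) := fun φ => by
    have h := Dv.inner_symm hX hY hx hy (hv.dv_rot_X hX hρ hx hy φ) (hv.dv_rot_Y hX hρ hx hy φ)
      hv.comm
    simp only [inner_add_left, inner_add_right, inner_sub_left, inner_sub_right, inner_smul_left,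
      inner_smul_right, Complex.conj_I] at h
    simp only [Int.cast_one, one_mul, Int.cast_neg, neg_mul, neg_neg] at h ⊢
    apply mul_left_cancel₀ hI
    linear_combination (-1 / 2 : ℂ) * h
  -- second identity
  have h2 : ∀ φ : ℝ, Complex.exp (-(((1 : ℤ) : ℂ) * φ) * Complex.I) * inner ℂ z (ρ φ α) =
      Complex.exp (-(((0 : ℤ) : ℂ) * φ) * Complex.I) * inner ℂ β (ρ φ z) := fun φ => by
    have hz' : Dv W (ρ φ v) (ρ φ z) := hz.map (ρ φ) fun t => hWρ t φ v
    have ha := Dv.inner_symm hX hW hx hz (hv.dv_rot_X hX hρ hx hy φ) hz'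
      (Eventually.of_forall fun t => hWX _ _ _)
    have hb := Dv.inner_symm hY hW hy hz (hv.dv_rot_Y hX hρ hx hy φ) hz'
      (Eventually.of_forall fun t => by simp only [Dop_apply, hWX, hWρ])
    simp only [inner_add_left, inner_add_right, inner_sub_left, inner_sub_right, inner_smul_left,
      inner_smul_right, Complex.conj_I] at ha hb
    simp only [Int.cast_one, one_mul, Int.cast_zero, zero_mul, neg_zero, Complex.exp_zero,
      neg_mul] at ha hb ⊢
    apply mul_left_cancel₀ hI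
    linear_combination (1 / 2 : ℂ) * hb - (Complex.I / 2) * ha
  have hAB : ∀ m : ℤ, ‖hρ.P (m + 1) α‖ = ‖hρ.P (m - 1) β‖ := fun m => by
    have h := hρ.inner_P_shift 1 (-1) h1 m
    rw [← hρ.inner_P_P hper _ α α, ← hρ.inner_P_P hper _ β β, inner_self_eq_norm_sq_to_K,
      inner_self_eq_norm_sq_to_K, ← sub_eq_add_neg] at h
    have h' : ‖hρ.P (m + 1) α‖ ^ 2 = ‖hρ.P (m - 1) β‖ ^ 2 := by exact_mod_cast h
    exact (pow_left_inj₀ (norm_nonneg _) (norm_nonneg _) two_ne_zero).1 h'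
  refine ⟨hAB n, ?_⟩
  let _ : InnerProductSpace ℝ H := InnerProductSpace.complexToReal
  have hre : ∀ a b : H, inner ℝ a b = (inner ℂ a b).re := fun a b => rfl
  refine seq_bound (fun m => hρ.P (m + 1) α) (fun m => hρ.P (m - 1) β) (fun m => -hρ.P m z)
    (α := ‖α‖ ^ 2) (norm_nonneg _) (norm_nonneg _) ((norm_nonneg _).trans hz₀) hAB ?_ ?_ ?_ ?_ ?_
    N hN n
  · intro m
    have h := hρ.inner_P_shift 1 0 h2 (m - 1)
    rw [← hρ.inner_P_P hper _ z α, ← hρ.inner_P_P hper _ β z, add_zero] at h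
    simp only [hre, inner_neg_left, inner_neg_right, sub_add_cancel] at h ⊢
    rw [h]
  · intro S
    have h := hρ.bessel hper (α + β + z) 0 S
    simp only [add_zero, map_add] at h
    simpa only [sub_add_cancel, add_sub_cancel_right, sub_neg_eq_add] using h
  · intro S
    have h := hρ.bessel hper (β - α) 0 S
    simp only [add_zero, map_sub] at h
    simpa only [sub_add_cancel, add_sub_cancel_right] using h
  · intro S
    have h := hρ.bessel hper z 0 S
    simp only [add_zero] at h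
    simp only [norm_neg]
    exact h.trans (pow_le_pow_left₀ (norm_nonneg _) hz₀ 2)
  · intro S
    exact hρ.bessel hper α 1 S

lemma mode_fixed (hX : UG X) (hρ : UG ρ) (hW : UG W) (hper : ∀ v, ρ (2 * Real.pi) v = v)
    (hWX : ∀ s t v, W s (X t v) = X t (W s v)) (hWρ : ∀ s t v, W s (ρ t v) = ρ t (W s v))
    {U : H} {z₀ : ℝ} (h : Appr X ρ W U z₀) (n : ℤ) (t : ℝ) : X t (hρ.P n U) = hρ.P n U := by
  have hz0 : 0 ≤ z₀ := by
    obtain ⟨v, x, y, z, -, -, -, -, -, hz, -⟩ := h 1 one_pos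
    exact (norm_nonneg _).trans hz
  have key : ∀ η : ℝ, 0 < η → ‖X t (hρ.P n U) - hρ.P n U‖ ≤ (2 + 2 * |t|) * η := by
    intro η hη
    obtain ⟨N, hN⟩ := exists_nat_gt (2 * z₀ ^ 2 / η ^ 2)
    have hN0 : (0 : ℝ) < N := lt_of_le_of_lt (by positivity) hN
    have hN1 : z₀ ^ 2 / N ≤ η ^ 2 / 2 := by
      rw [div_lt_iff₀ (by positivity)] at hN
      rw [div_le_iff₀ hN0]
      nlinarith
    set D : ℝ := 2 + (N : ℝ) ^ 2 * (3 + z₀) with hD
    have hD0 : 0 < D := by positivity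
    set κ : ℝ := min (min η 1) (η ^ 2 / 2 / D) with hκ
    have hκ0 : 0 < κ := by positivity
    have hκη : κ ≤ η := (min_le_left _ _).trans (min_le_left _ _)
    have hκ1 : κ ≤ 1 := (min_le_left _ _).trans (min_le_right _ _)
    have hκD : κ * D ≤ η ^ 2 / 2 := (le_div_iff₀ hD0).1 (min_le_right _ _)
    obtain ⟨v, x, y, z, hv, hx, hy, hz, hvU, hzz, hε, hεy⟩ := h κ hκ0
    set α : H := (1 / 2 : ℂ) • (x + Complex.I • y) with hα
    set β : H := (1 / 2 : ℂ) • (x - Complex.I • y) with hβ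
    have ex : x = α + β := by rw [hα, hβ]; module
    have ey : y = Complex.I • (β - α) := by
      have : β - α = (-Complex.I) • y := by rw [hα, hβ]; module
      rw [this, smul_smul]
      simp
    have ny : ‖β - α‖ = ‖y‖ := by rw [ey, norm_smul]; simp
    rw [ex] at hx
    rw [ey] at hy
    obtain ⟨hAB, hb⟩ := mode_bound hX hρ hW hper hWX hWρ hv hx hy hz hzz N (by exact_mod_cast hN0) n
    rw [ny, ← ex] at hb
    have hG : ‖hρ.P (n + 1) α‖ ≤ η := by
      have h3 : ‖x + z‖ * (z₀ + ‖x + z‖) ≤ κ * (z₀ + 1) :=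
        mul_le_mul hε (by linarith) (by positivity) hκ0.le
      have h4 : (N : ℝ) ^ 2 * (2 * (‖x + z‖ * ‖y‖) + ‖x + z‖ * (z₀ + ‖x + z‖)) ≤
          (N : ℝ) ^ 2 * (κ * (3 + z₀)) :=
        mul_le_mul_of_nonneg_left (by linarith) (by positivity)
      have h5 : ‖hρ.P (n + 1) α‖ ^ 2 ≤ η ^ 2 := by
        have : κ * D = 2 * κ + (N : ℝ) ^ 2 * (κ * (3 + z₀)) := by rw [hD]; ring
        linarith
      exact (pow_le_pow_iff_left₀ (norm_nonneg _) hη.le two_ne_zero).1 h5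
    have hd := (hρ.dv_P hX (hv.dv_rot_X hX hρ hx hy) n).norm_sub_le hX t
    have hs : ‖hρ.P (n + 1) α + hρ.P (n - 1) β‖ ≤ 2 * η :=
      (norm_add_le _ _).trans (by linarith)
    have hP : ‖hρ.P n (v - U)‖ ≤ η := (hρ.norm_P_le n _).trans (hvU.trans hκη)
    have e : X t (hρ.P n U) - hρ.P n U =
        (X t (hρ.P n v) - hρ.P n v) - X t (hρ.P n (v - U)) + hρ.P n (v - U) := by
      simp only [map_sub]; abel
    rw [e]
    calc _ ≤ ‖X t (hρ.P n v) - hρ.P n v‖ + ‖X t (hρ.P n (v - U))‖ + ‖hρ.P n (v - U)‖ :=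
          (norm_add_le _ _).trans (by gcongr; exact norm_sub_le _ _)
      _ ≤ |t| * (2 * η) + η + η := by
          rw [hX.norm]
          gcongr
          exact hd.trans (by gcongr)
      _ = (2 + 2 * |t|) * η := by ring
  rw [← sub_eq_zero, ← norm_le_zero_iff]
  refine le_of_forall_pos_le_add fun η hη => ?_
  have hc : 0 < 2 + 2 * |t| := by positivity
  have := key (η / (2 + 2 * |t|)) (by positivity)
  rw [mul_div_cancel₀ _ hc.ne'] at this
  linarith

theorem core (hX : UG X) (hρ : UG ρ) (hW : UG W) (hper : ∀ v, ρ (2 * Real.pi) v = v)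
    (hWX : ∀ s t v, W s (X t v) = X t (W s v)) (hWρ : ∀ s t v, W s (ρ t v) = ρ t (W s v))
    {U : H} {z₀ : ℝ} (h : Appr X ρ W U z₀) (θ t : ℝ) : Dop X ρ θ t U = U := by
  have := hρ.eq_zero_of_P hper (Dop X ρ θ t - ContinuousLinearMap.id ℂ H) U fun n => by
    rw [sub_apply, ContinuousLinearMap.id_apply, Dop_apply,
      hρ.apply_P hper n θ, map_smul, mode_fixed hX hρ hW hper hWX hWρ h, ← hρ.apply_P hper n θ,
      hρ.neg_apply, sub_self]
  rwa [sub_apply, ContinuousLinearMap.id_apply, sub_eq_zero] at this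

end Crest.Agent.R103A
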