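import Mathlib

/-!
# Row 103 (analysis half): the logarithmic cut-off
-/

set_option autoImplicit false
set_option linter.unusedSectionVars false
open MeasureTheory Filter Topology

noncomputable section

namespace Crest.Agent.R103A

/-- the cut-off profile: the mean of `N` ramps with disjoint transition zones
`[4^{-k}, 2 · 4^{-k}]`, `N < k ≤ 2 N` -/
def cut (N : ℕ) (r : ℝ) : ℝ :=
  (∑ k ∈ Finset.Ioc N (2 * N), max 0 (min 1 (4 ^ k * r - 1))) / N

theorem continuous_cut (N : ℕ) : Continuous (cut N) := by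
  unfold cut
  fun_prop

theorem cut_nonneg (N : ℕ) (r : ℝ) : 0 ≤ cut N r := by
  exact div_nonneg (Finset.sum_nonneg fun _ _ => le_max_left _ _) (Nat.cast_nonneg _)

theorem cut_le_one (N : ℕ) (r : ℝ) : cut N r ≤ 1 := by
  refine div_le_one_of_le₀ ?_ (Nat.cast_nonneg _)
  refine (Finset.sum_le_card_nsmul _ _ 1 fun _ _ => max_le zero_le_one (min_le_left _ _)).trans ?_
  rw [Nat.card_Ioc, show 2 * N - N = N by omega, nsmul_eq_mul, mul_one]

theorem Cut_pow_le {k l : ℕ} (h : k ≤ l) : (4 : ℝ) ^ k * (1 / 4) ^ l ≤ 1 := by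
  rw [one_div_pow, mul_one_div, div_le_one (by positivity)]
  exact pow_le_pow_right₀ (by norm_num) h

theorem Cut_pow_ge {k l : ℕ} (h : l < k) : 4 ≤ (4 : ℝ) ^ k * (1 / 4) ^ l := by
  rw [one_div_pow, mul_one_div, le_div_iff₀ (by positivity), ← pow_succ']
  exact pow_le_pow_right₀ (by norm_num) h

theorem cut_eq_zero (N : ℕ) {r : ℝ} (h : r ≤ (1 / 4) ^ (2 * N)) : cut N r = 0 := by
  rw [cut, Finset.sum_eq_zero, zero_div]
  intro k hk
  have h1 := Cut_pow_le (Finset.mem_Ioc.1 hk).2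
  have h2 : (4 : ℝ) ^ k * r ≤ 4 ^ k * (1 / 4) ^ (2 * N) := by gcongr
  exact max_eq_left (min_le_of_right_le (by linarith))

theorem cut_eq_one {N : ℕ} (hN : 0 < N) {r : ℝ} (h : (1 / 4) ^ N ≤ r) : cut N r = 1 := by
  have hN' : (N : ℝ) ≠ 0 := by positivity
  rw [cut, div_eq_one_iff_eq hN', Finset.sum_congr rfl (g := fun _ => (1 : ℝ)), Finset.sum_const,
    Nat.card_Ioc, show 2 * N - N = N by omega, nsmul_eq_mul, mul_one]
  intro k hk
  have h1 := Cut_pow_ge (Finset.mem_Ioc.1 hk).1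
  have h2 : (4 : ℝ) ^ k * (1 / 4) ^ N ≤ 4 ^ k * r := by gcongr
  rw [min_eq_left (by linarith), max_eq_right zero_le_one]

theorem Cut_ramp_lip (x y : ℝ) : |max 0 (min 1 (x - 1)) - max 0 (min 1 (y - 1))| ≤ |x - y| := by
  have h1 := abs_max_sub_max_le_abs (min 1 (x - 1)) (min 1 (y - 1)) 0
  have h2 := abs_min_sub_min_le_max 1 (x - 1) 1 (y - 1)
  rw [sub_self, abs_zero, max_eq_right (abs_nonneg _), sub_sub_sub_cancel_right] at h2
  rw [max_comm 0, max_comm 0]
  exact h1.trans h2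

theorem Cut_ramp_zone {x y : ℝ} (h : |x - y| ≤ 1 / 4)
    (hne : max 0 (min 1 (x - 1)) - max 0 (min 1 (y - 1)) ≠ 0) : 3 / 4 < y ∧ y < 9 / 4 := by
  rw [abs_le] at h
  constructor
  · by_contra h1
    rw [not_lt] at h1
    rw [max_eq_left (min_le_of_right_le (by linarith)),
      max_eq_left (min_le_of_right_le (by linarith))] at hne
    exact hne (sub_self _)
  · by_contra h1
    rw [not_lt] at h1
    rw [min_eq_left (by linarith), min_eq_left (by linarith)] at hne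
    exact hne (sub_self _)

/-- The `k`-th ramp changes by at most `4^k η`, and only if
`4^{-k} - η < b < 2 · 4^{-k} + η`; these zones are disjoint, so at most one term is nonzero. -/
theorem cut_sub_sq_le (N : ℕ) {a b η : ℝ} (hab : |a - b| ≤ η) (hη : η ≤ (1 / 4) ^ (2 * N + 1)) :
    (cut N a - cut N b) ^ 2 ≤ (η / N) ^ 2 *
      ∑ k ∈ Finset.Ioc N (2 * N), if b < 3 * (1 / 4) ^ k then (16 : ℝ) ^ k else 0 := by
  have hη0 : 0 ≤ η := (abs_nonneg _).trans hab
  obtain ⟨d, hd⟩ : ∃ d : ℕ → ℝ,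
      ∀ k, d k = max 0 (min 1 (4 ^ k * a - 1)) - max 0 (min 1 (4 ^ k * b - 1)) :=
    ⟨_, fun _ => rfl⟩
  have h1 : ∀ k : ℕ, |4 ^ k * a - 4 ^ k * b| ≤ 4 ^ k * η := fun k => by
    rw [← mul_sub, abs_mul, abs_of_nonneg (by positivity)]
    gcongr
  have h2 : ∀ k, |d k| ≤ 4 ^ k * η := fun k => by
    rw [hd]
    exact (Cut_ramp_lip _ _).trans (h1 k)
  have h3 : ∀ k ∈ Finset.Ioc N (2 * N), d k ≠ 0 → 3 / 4 < 4 ^ k * b ∧ 4 ^ k * b < 9 / 4 := by
    intro k hk hne
    rw [hd] at hne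
    refine Cut_ramp_zone ((h1 k).trans ?_) hne
    have h4 := Cut_pow_le (Finset.mem_Ioc.1 hk).2
    calc (4 : ℝ) ^ k * η ≤ 4 ^ k * (1 / 4) ^ (2 * N + 1) := by gcongr
      _ = 4 ^ k * (1 / 4) ^ (2 * N) * (1 / 4) := by ring
      _ ≤ 1 / 4 := by linarith
  have h4 : ∀ k ∈ Finset.Ioc N (2 * N), ∀ l ∈ Finset.Ioc N (2 * N), d k ≠ 0 → d l ≠ 0 →
      ¬ k < l := by
    intro k hk l hl hk' hl' hkl
    have h5 := (h3 k hk hk').1
    have h6 := (h3 l hl hl').2
    have hb : 0 < b := by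
      have h7 : (0 : ℝ) < 4 ^ k * b := by linarith
      exact (mul_pos_iff_of_pos_left (by positivity)).1 h7
    have h7 : (4 : ℝ) ^ (k + 1) * b ≤ 4 ^ l * b := by
      gcongr
      · norm_num
      · exact hkl
    rw [pow_succ] at h7
    linarith
  have hnn : ∀ k ∈ Finset.Ioc N (2 * N),
      0 ≤ if b < 3 * (1 / 4) ^ k then (16 : ℝ) ^ k else 0 := fun k _ => by
    split_ifs <;> positivity
  have key : (∑ k ∈ Finset.Ioc N (2 * N), d k) ^ 2 ≤ η ^ 2 *
      ∑ k ∈ Finset.Ioc N (2 * N), if b < 3 * (1 / 4) ^ k then (16 : ℝ) ^ k else 0 := by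
    by_cases hex : ∃ k ∈ Finset.Ioc N (2 * N), d k ≠ 0
    · obtain ⟨k, hk, hne⟩ := hex
      rw [Finset.sum_eq_single_of_mem k hk fun l hl hlk => by
        by_contra hl'
        rcases lt_or_gt_of_ne hlk with h | h
        · exact h4 l hl k hk hl' hne h
        · exact h4 k hk l hl hne hl' h]
      have h5 := Finset.single_le_sum hnn hk
      have h6 : b < 3 * (1 / 4) ^ k := by
        rw [one_div_pow, mul_one_div, lt_div_iff₀ (by positivity)]
        linarith [(h3 k hk hne).2]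
      rw [if_pos h6] at h5
      calc d k ^ 2 = |d k| ^ 2 := (sq_abs _).symm
        _ ≤ (4 ^ k * η) ^ 2 := by gcongr; exact h2 k
        _ = η ^ 2 * 16 ^ k := by
            rw [mul_pow, ← pow_mul, mul_comm k 2, pow_mul, mul_comm]; norm_num
        _ ≤ _ := by gcongr
    · push Not at hex
      rw [Finset.sum_eq_zero hex, zero_pow two_ne_zero]
      exact mul_nonneg (sq_nonneg _) (Finset.sum_nonneg hnn)
  have h5 : cut N a - cut N b = (∑ k ∈ Finset.Ioc N (2 * N), d k) / N := by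
    simp only [cut, hd, Finset.sum_sub_distrib, sub_div]
  rw [h5, div_pow, div_pow, div_mul_eq_mul_div]
  gcongr

theorem Cut_ite_eq {Ω : Type*} (r : Ω → ℝ) (ρ c : ℝ) :
    (fun p => if r p < ρ then c else 0) = {p | r p < ρ}.indicator fun _ => c := by
  funext p
  simp [Set.indicator_apply]

theorem Cut_ite_int {Ω : Type*} [MeasurableSpace Ω] (ν : Measure Ω) [IsFiniteMeasure ν]
    {r : Ω → ℝ} (hr : Measurable r) (ρ c : ℝ) :
    Integrable (fun p => if r p < ρ then c else 0) ν := by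
  rw [Cut_ite_eq]
  exact (integrable_const c).indicator (measurableSet_lt hr measurable_const)

theorem Cut_ite_le {Ω : Type*} [MeasurableSpace Ω] (ν : Measure Ω)
    {r : Ω → ℝ} (hr : Measurable r) {C : ℝ} (hC : 0 ≤ C)
    (hsmall : ∀ ρ, 0 < ρ → ν {p | r p < ρ} ≤ ENNReal.ofReal (C * ρ ^ 2)) {ρ c : ℝ} (hρ : 0 < ρ)
    (hc : 0 ≤ c) : ∫ p, (if r p < ρ then c else 0) ∂ν ≤ C * ρ ^ 2 * c := by
  rw [Cut_ite_eq, integral_indicator_const _ (measurableSet_lt hr measurable_const), smul_eq_mul]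
  refine mul_le_mul_of_nonneg_right ?_ hc
  exact ENNReal.toReal_le_of_le_ofReal (by positivity) (hsmall ρ hρ)

/-- integrate `cut_sub_sq_le`: each of the `N` terms contributes `16^k · C · 9 · 16^{-k}` -/
theorem integral_cut_sub_le {Ω : Type*} [MeasurableSpace Ω] (ν : Measure Ω) [IsFiniteMeasure ν]
    {r r' : Ω → ℝ} (hr : Measurable r) (hr' : Measurable r') {C η : ℝ} (hC : 0 ≤ C)
    (hsmall : ∀ ρ, 0 < ρ → ν {p | r p < ρ} ≤ ENNReal.ofReal (C * ρ ^ 2)) {N : ℕ} (hN : 0 < N)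
    (h : ∀ᵐ p ∂ν, |r' p - r p| ≤ η) (hη : η ≤ (1 / 4) ^ (2 * N + 1)) :
    ∫ p, (cut N (r' p) - cut N (r p)) ^ 2 ∂ν ≤ 9 * C / N * η ^ 2 := by
  have hN' : (0 : ℝ) < N := by exact_mod_cast hN
  have hi := fun k : ℕ => Cut_ite_int ν hr (3 * (1 / 4) ^ k) ((16 : ℝ) ^ k)
  calc ∫ p, (cut N (r' p) - cut N (r p)) ^ 2 ∂ν
      ≤ ∫ p, (η / N) ^ 2 * ∑ k ∈ Finset.Ioc N (2 * N),
          (if r p < 3 * (1 / 4) ^ k then (16 : ℝ) ^ k else 0) ∂ν :=
        integral_mono_of_nonneg (Eventually.of_forall fun _ => sq_nonneg _)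
          ((integrable_finsetSum _ fun k _ => hi k).const_mul _)
          (h.mono fun p hp => cut_sub_sq_le N hp hη)
    _ = (η / N) ^ 2 * ∑ k ∈ Finset.Ioc N (2 * N),
          ∫ p, (if r p < 3 * (1 / 4) ^ k then (16 : ℝ) ^ k else 0) ∂ν := by
        rw [integral_const_mul, integral_finsetSum _ fun k _ => hi k]
    _ ≤ (η / N) ^ 2 * ∑ _k ∈ Finset.Ioc N (2 * N), 9 * C := by
        gcongr with k
        refine (Cut_ite_le ν hr hC hsmall (by positivity) (by positivity)).trans (le_of_eq ?_)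
        have h1 : ((1 / 4 : ℝ) ^ k) ^ 2 * 16 ^ k = 1 := by
          rw [← pow_mul, mul_comm k 2, pow_mul, ← mul_pow]; norm_num
        linear_combination 9 * C * h1
    _ = 9 * C / N * η ^ 2 := by
        rw [Finset.sum_const, Nat.card_Ioc, show 2 * N - N = N by omega, nsmul_eq_mul]
        field_simp

/-- the integrand is at most the indicator function of `{r < 4^{-N}}` -/
theorem integral_one_sub_cut_le {Ω : Type*} [MeasurableSpace Ω] (ν : Measure Ω)
    [IsFiniteMeasure ν] {r : Ω → ℝ} (hr : Measurable r) {C : ℝ} (hC : 0 ≤ C)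
    (hsmall : ∀ ρ, 0 < ρ → ν {p | r p < ρ} ≤ ENNReal.ofReal (C * ρ ^ 2)) {N : ℕ} (hN : 0 < N) :
    ∫ p, (1 - cut N (r p)) ^ 2 ∂ν ≤ C * (1 / 16) ^ N := by
  calc ∫ p, (1 - cut N (r p)) ^ 2 ∂ν ≤ ∫ p, (if r p < (1 / 4) ^ N then (1 : ℝ) else 0) ∂ν := by
        refine integral_mono_of_nonneg (Eventually.of_forall fun _ => sq_nonneg _)
          (Cut_ite_int ν hr _ _) (Eventually.of_forall fun p => ?_)
        simp only
        split_ifs with h
        · nlinarith [cut_nonneg N (r p), cut_le_one N (r p)]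
        · rw [cut_eq_one hN (not_lt.1 h)]
          norm_num
    _ ≤ C * ((1 / 4) ^ N) ^ 2 * 1 := Cut_ite_le ν hr hC hsmall (by positivity) zero_le_one
    _ = C * (1 / 16) ^ N := by
        rw [mul_one, ← pow_mul, mul_comm N 2, pow_mul]; norm_num

end Crest.Agent.R103A
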