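import Crest.Agent.R103A.Defs

/-!
# Row 103 (analysis half): Lipschitz vectors are differentiable
-/

set_option autoImplicit false
set_option linter.unusedSectionVars false
open MeasureTheory Filter Topology

noncomputable section

namespace Crest.Agent.R103A

variable {H : Type*} [NormedAddCommGroup H] [InnerProductSpace ℂ H] [CompleteSpace H]

theorem Lip_weak {α : Type*} (𝒰 : Ultrafilter α) (q : α → H) {C : ℝ}
    (hq : ∀ᶠ s in (𝒰 : Filter α), ‖q s‖ ≤ C) :
    ∃ x : H, ‖x‖ ≤ C ∧ ∀ g, Tendsto (fun s => inner ℂ (q s) g) 𝒰 (𝓝 (inner ℂ x g)) := by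
  let Φ : α → WeakDual ℂ H := fun s =>
    StrongDual.toWeakDual (InnerProductSpace.toDual ℂ H (q s))
  obtain ⟨l, hl, hl'⟩ := (WeakDual.isCompact_closedBall (0 : StrongDual ℂ H) C).ultrafilter_le_nhds
    (𝒰.map Φ) (by
      rw [le_principal_iff, Ultrafilter.coe_map, mem_map]
      filter_upwards [hq] with s hs
      simpa [Φ] using hs)
  refine ⟨(InnerProductSpace.toDual ℂ H).symm (WeakDual.toStrongDual l), by simpa using hl,
    fun g => ?_⟩
  rw [InnerProductSpace.toDual_symm_apply]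
  exact ((WeakDual.eval_continuous g).tendsto l).comp hl'

/-- Let `q h = h⁻¹ • (T h v - v)`, bounded by `C` near `0`, and let `𝒰` be an ultrafilter finer
than `𝓝[≠] 0`.  The functional `g ↦ lim_𝒰 ⟪q h, g⟫` (limits of bounded complex numbers along an
ultrafilter exist by compactness of closed discs) is linear and bounded by `C`, so it is
`g ↦ ⟪x, g⟫` (`InnerProductSpace.toDual`) with `‖x‖ ≤ C`.  For fixed `t`:
`∫_0^t T s (q h) ds = h⁻¹ (∫_t^{t+h} T s v - ∫_0^h T s v) → T t v - v` in norm, and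
`⟪∫_0^t T s (q h), g⟫ = ⟪q h, ∫_0^t T (-s) g⟫ → ⟪x, ∫_0^t T (-s) g⟫ = ⟪∫_0^t T s x, g⟫`.
Hence `T t v = v + ∫_0^t T s x ds` for all `t`, and the fundamental theorem of calculus ends. -/
theorem UG.exists_dv {T : ℝ → H →L[ℂ] H} (hT : UG T) {v : H} {C : ℝ}
    (h : ∀ᶠ t in 𝓝 (0 : ℝ), ‖T t v - v‖ ≤ C * |t|) : ∃ x, Dv T v x ∧ ‖x‖ ≤ C := by
  let q : ℝ → H := fun s => s⁻¹ • (T s v - v)
  have hq : ∀ᶠ s in 𝓝[≠] (0 : ℝ), ‖q s‖ ≤ C := by
    filter_upwards [h.filter_mono nhdsWithin_le_nhds, self_mem_nhdsWithin] with s hs hs0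
    have h0 : 0 < |s| := abs_pos.2 hs0
    rw [norm_smul, norm_inv, Real.norm_eq_abs, inv_mul_le_iff₀ h0, mul_comm]
    exact hs
  obtain ⟨x, hxC, hx⟩ := Lip_weak (Ultrafilter.of (𝓝[≠] (0 : ℝ))) q
    (hq.filter_mono (Ultrafilter.of_le _))
  have hF : ∀ (w : H) (t : ℝ), HasDerivAt (fun t => ∫ s in (0 : ℝ)..t, T s w) (T t w) t :=
    fun w t => ((hT.cont w).integral_hasStrictDerivAt 0 t).hasDerivAt
  have key : ∀ t, T t v = v + ∫ s in (0 : ℝ)..t, T s x := fun t => by
    let W : H →L[ℂ] H := hT.wint (fun _ => 1) continuous_const t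
    have hW : ∀ w, W w = ∫ s in (0 : ℝ)..t, T s w := fun w => by
      simp only [W, UG.wint_apply, one_smul]
    have e : ∀ s, W (q s) = s⁻¹ • ((∫ τ in (0 : ℝ)..(t + s), T τ v) - ∫ τ in (0 : ℝ)..t, T τ v) -
        s⁻¹ • ((∫ τ in (0 : ℝ)..(0 + s), T τ v) - ∫ τ in (0 : ℝ)..0, T τ v) := fun s => by
      have e1 : W (T s v) = (∫ τ in (0 : ℝ)..(t + s), T τ v) - ∫ τ in (0 : ℝ)..(0 + s), T τ v := by
        rw [hW, intervalIntegral.integral_interval_sub_left ((hT.cont v).intervalIntegrable _ _)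
          ((hT.cont v).intervalIntegrable _ _),
          ← intervalIntegral.integral_comp_add_right (fun τ => T τ v) s]
        simp only [hT.add]
      rw [W.map_smul_of_tower, map_sub, e1, hW, intervalIntegral.integral_same, ← smul_sub]
      congr 1
      abel
    have h1 : Tendsto (fun s => W (q s)) (𝓝[≠] 0) (𝓝 (T t v - v)) := by
      have := (hF v t).tendsto_slope_zero.sub (hF v 0).tendsto_slope_zero
      rw [hT.zero] at this
      exact this.congr fun s => (e s).symm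
    rw [← hW, ← sub_eq_iff_eq_add']
    refine ext_inner_right ℂ fun g => ?_
    have h2 : Tendsto (fun s => inner ℂ (W (q s)) g) (Ultrafilter.of (𝓝[≠] (0 : ℝ)))
        (𝓝 (inner ℂ (T t v - v) g)) :=
      (h1.inner tendsto_const_nhds).mono_left (Ultrafilter.of_le _)
    have h3 := hx (ContinuousLinearMap.adjoint W g)
    simp only [ContinuousLinearMap.adjoint_inner_right] at h3
    exact tendsto_nhds_unique h2 h3
  refine ⟨x, ?_, hxC⟩
  have := (hF x 0).const_add v
  rw [hT.zero] at this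
  exact this.congr_of_eventuallyEq (Eventually.of_forall key)

end Crest.Agent.R103A
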