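import Crest.Agent.R103A.Koop
import Crest.Agent.R103A.Core
import Crest.Agent.R103A.Lip
import Crest.Agent.R103A.Cut

/-!
# Row 103 (analysis half): the approximants `χ(r_s) · (average of U along Y)`
-/

set_option autoImplicit false
set_option linter.unusedSectionVars false
open MeasureTheory Filter Topology

noncomputable section

namespace Crest.Agent.R103A

open Crest.Agent.R103D

variable {Ω : Type*} [MeasurableSpace Ω] {ν : Measure Ω} (S : Sys Ω ν)

/-- Koopman group of the geodesic flow -/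
def XK : ℝ → L2 ν →L[ℂ] L2 ν := KF S.flowX

/-- Koopman group of the rotations -/
def RK : ℝ → L2 ν →L[ℂ] L2 ν := fun φ => KF S.flowR (-φ)

/-- Koopman group of the second flow -/
def WK : ℝ → L2 ν →L[ℂ] L2 ν := KF S.flowW

lemma ug_XK : UG (XK S) := ug_KF _
lemma ug_RK : UG (RK S) := (ug_KF S.flowR).neg
lemma ug_WK : UG (WK S) := ug_KF _
lemma ug_D (θ : ℝ) : UG (Dop (XK S) (RK S) θ) := (ug_XK S).dop (ug_RK S) θ

lemma rep_XK (t : ℝ) : Rep ν (XK S t) (S.X t) := rep_KF _ _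
lemma rep_RK (t : ℝ) : Rep ν (RK S t) (S.R (-t)) := rep_KF _ _
lemma rep_WK (t : ℝ) : Rep ν (WK S t) (S.W t) := rep_KF _ _

lemma rep_D (θ t : ℝ) : Rep ν (Dop (XK S) (RK S) θ t) (dirFlow S.X S.R θ t) :=
  (((rep_RK S θ).comp (rep_XK S t)).comp (rep_RK S (-θ))).congr fun p => by
    rw [neg_neg, dirFlow]

lemma RK_per (v : L2 ν) : RK S (2 * Real.pi) v = v :=
  (rep_RK S _).eq_of_eq rep_id (fun p => by
    conv_lhs => rw [← S.R_per p]
    rw [← S.flowR.add, neg_add_cancel, S.flowR.zero]) v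

lemma WK_XK (s t : ℝ) (v : L2 ν) : WK S s (XK S t v) = XK S t (WK S s v) :=
  ((rep_XK S t).comp (rep_WK S s)).eq_of_eq ((rep_WK S s).comp (rep_XK S t))
    (fun p => (S.WX s t p).symm) v

lemma WK_RK (s t : ℝ) (v : L2 ν) : WK S s (RK S t v) = RK S t (WK S s v) :=
  ((rep_RK S t).comp (rep_WK S s)).eq_of_eq ((rep_WK S s).comp (rep_RK S t))
    (fun p => (S.WR s (-t) p).symm) v

lemma WK_D (s θ t : ℝ) (v : L2 ν) :
    WK S s (Dop (XK S) (RK S) θ t v) = Dop (XK S) (RK S) θ t (WK S s v) := by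
  simp only [Dop_apply, WK_XK, WK_RK]

lemma dirFlow_zero (t : ℝ) (p : Ω) : dirFlow S.X S.R 0 t p = S.X t p := by
  rw [dirFlow, neg_zero, S.flowR.zero, S.flowR.zero]

lemma d_D (θ t : ℝ) (p : Ω) : S.d (dirFlow S.X S.R θ t p) ≤ S.d p + |t| := by
  have h := (abs_le.1 (S.d_X t (S.R θ p))).2
  rw [S.d_R] at h
  rw [dirFlow, S.d_R]
  linarith

lemma d_X' (t : ℝ) (p : Ω) : S.d (S.X t p) ≤ S.d p + |t| := by
  have h := (abs_le.1 (S.d_X t p)).2
  linarith

lemma loc_comm (a b : ℝ) : ∀ᵐ p ∂ν, S.K * (|a| + |b|) < S.d p →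
    S.X a (dirFlow S.X S.R (Real.pi / 2) b p) = dirFlow S.X S.R (Real.pi / 2) b (S.X a p) := by
  set z : ℂ := (a : ℂ) * Complex.exp (((0 : ℝ) : ℂ) * Complex.I) +
    (b : ℂ) * Complex.exp (((Real.pi / 2 : ℝ) : ℂ) * Complex.I) with hz
  have h1 := S.loc 0 (Real.pi / 2) (Complex.arg z) a b ‖z‖
    (Complex.norm_mul_exp_arg_mul_I z).symm
  have h2 := S.loc (Real.pi / 2) 0 (Complex.arg z) b a ‖z‖
    ((add_comm _ _).trans (Complex.norm_mul_exp_arg_mul_I z).symm)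
  filter_upwards [h1, h2] with p h1 h2 hp
  have h3 := h1 hp
  have h4 := h2 (by rwa [add_comm])
  rw [dirFlow_zero] at h3 h4
  rw [h3, h4]

lemma loc_dir (θ t : ℝ) : ∀ᵐ p ∂ν, S.K * (|t * Real.cos θ| + |t * Real.sin θ|) < S.d p →
    S.X (t * Real.cos θ) (dirFlow S.X S.R (Real.pi / 2) (t * Real.sin θ) p) =
      dirFlow S.X S.R θ t p := by
  have h1 := S.loc 0 (Real.pi / 2) θ (t * Real.cos θ) (t * Real.sin θ) t (by
    push_cast
    rw [Complex.exp_pi_div_two_mul_I, Complex.exp_mul_I (x := θ)]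
    simp
    ring)
  filter_upwards [h1] with p h1 hp
  have h3 := h1 hp
  rwa [dirFlow_zero] at h3

lemma eq_of_van {L L' : L2 ν →L[ℂ] L2 ν} {F F' : Ω → Ω} (h : Rep ν L F) (h' : Rep ν L' F')
    {v : L2 ν} {d₀ : ℝ} (hv : ∀ᵐ p ∂ν, S.d p ≤ d₀ → v p = 0)
    (hF : ∀ᵐ p ∂ν, F p = F' p ∨ (S.d (F p) ≤ d₀ ∧ S.d (F' p) ≤ d₀)) : L v = L' v := by
  refine h.eq_of_ae h' v ?_
  filter_upwards [h.ae hv, h'.ae hv, hF] with p h1 h2 h3
  rcases h3 with h3 | h3
  · rw [h3]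
  · rw [h1 h3.1, h2 h3.2]

lemma eventually_abs_le {c : ℝ} (hc : 0 < c) : ∀ᶠ t in 𝓝 (0 : ℝ), |t| ≤ c := by
  filter_upwards [Metric.closedBall_mem_nhds (0 : ℝ) hc] with t ht
  simpa using ht

lemma loc_of_van {v : L2 ν} {d₀ : ℝ} (hd : 0 < d₀) (hv : ∀ᵐ p ∂ν, S.d p ≤ d₀ → v p = 0) :
    Loc (XK S) (RK S) v := by
  have hK := S.one_le_K
  have hev := eventually_abs_le (c := d₀ / (2 * S.K + 2)) (by positivity)
  refine ⟨fun θ => ?_, ?_⟩
  · filter_upwards [hev] with t ht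
    rw [le_div_iff₀ (by positivity)] at ht
    refine eq_of_van S (rep_D S θ t) ((rep_XK S _).comp (rep_D S _ _)) hv ?_
    filter_upwards [loc_dir S θ t] with p hp
    have hc : |t * Real.cos θ| ≤ |t| := by
      rw [abs_mul]; exact mul_le_of_le_one_right (abs_nonneg _) (Real.abs_cos_le_one θ)
    have hs : |t * Real.sin θ| ≤ |t| := by
      rw [abs_mul]; exact mul_le_of_le_one_right (abs_nonneg _) (Real.abs_sin_le_one θ)
    by_cases h : S.K * (|t * Real.cos θ| + |t * Real.sin θ|) < S.d p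
    · exact Or.inl (hp h).symm
    · have h1 : S.d p ≤ 2 * S.K * |t| := by
        have : S.K * (|t * Real.cos θ| + |t * Real.sin θ|) ≤ S.K * (|t| + |t|) := by gcongr
        linarith [not_lt.1 h]
      have h2 := d_D S θ t p
      have h3 := d_D S (Real.pi / 2) (t * Real.sin θ) p
      have h4 := d_X' S (t * Real.cos θ) (dirFlow S.X S.R (Real.pi / 2) (t * Real.sin θ) p)
      have h5 := abs_nonneg t
      exact Or.inr ⟨by linarith, by linarith⟩
  · filter_upwards [hev] with t ht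
    rw [le_div_iff₀ (by positivity)] at ht
    refine eq_of_van S ((rep_XK S t).comp (rep_D S _ _)) ((rep_D S _ _).comp (rep_XK S t)) hv ?_
    filter_upwards [loc_comm S t (-t)] with p hp
    by_cases h : S.K * (|t| + |-t|) < S.d p
    · exact Or.inl (hp h)
    · have h1 : S.d p ≤ 2 * S.K * |t| := by
        rw [abs_neg] at h
        linarith [not_lt.1 h]
      have h2 := d_D S (Real.pi / 2) (-t) p
      have h3 := d_X' S t (dirFlow S.X S.R (Real.pi / 2) (-t) p)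
      have h4 := d_X' S t p
      have h5 := d_D S (Real.pi / 2) (-t) (S.X t p)
      rw [abs_neg] at h2 h5
      exact Or.inr ⟨by linarith, by linarith⟩

lemma w01_cut (N : ℕ) (s : ℝ) : W01 fun p => cut N (S.r s p) :=
  ⟨(continuous_cut N).measurable.comp (S.r_meas s), fun _ => cut_nonneg _ _,
    fun _ => cut_le_one _ _⟩

lemma d_gt_of_cut {N : ℕ} {s : ℝ} (hs : 0 < s) {p : Ω} (h : cut N (S.r s p) ≠ 0) :
    s * (1 / 4) ^ (2 * N) < S.d p := by
  have h1 : (1 / 4) ^ (2 * N) < S.r s p := lt_of_not_ge fun h' => h (cut_eq_zero N h')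
  exact (mul_lt_mul_of_pos_left h1 hs).trans_le (S.r_le s hs p)

variable [IsFiniteMeasure ν]

/-- one approximant -/
lemma exists_appr {U w : L2 ν} (hU : Bd U) (hw : Dv (WK S) U w)
    (hinv : ∀ t, XK S t U = WK S (-t) U) {N : ℕ} (hN : 0 < N) {s δ A η : ℝ} (hs : 0 < s)
    (hs1 : s ≤ 1) (hδ : 0 < δ) (hδs : 4 * S.K * δ = s * (1 / 4) ^ (2 * N)) (hA : 0 ≤ A)
    (hA2 : A ^ 2 = 9 * S.C / N) (hη : 0 ≤ η) (hηC : S.C * (1 / 16) ^ N ≤ η ^ 2) :
    ∃ v x y z : L2 ν, Loc (XK S) (RK S) v ∧ Dv (XK S) v x ∧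
      Dv (Dop (XK S) (RK S) (Real.pi / 2)) v y ∧ Dv (WK S) v z ∧
      ‖v - U‖ ≤ ‖(ug_D S (Real.pi / 2)).avg δ U - U‖ + η ∧ ‖z‖ ≤ ‖w‖ ∧ ‖x + z‖ ≤ A * s ∧
      ‖y‖ ≤ A * (S.K / s) + δ⁻¹ * ‖Dop (XK S) (RK S) (Real.pi / 2) δ U - U‖ := by
  have hK := S.one_le_K
  have hX := ug_XK S
  have hW := ug_WK S
  have hY := ug_D S (Real.pi / 2)
  have hχ := w01_cut S N s
  have hsmall := S.r_small s hs hs1
  set V := hY.avg δ U with hV
  have hVb : Bd V := hY.avg_mem hδ U isClosed_bd bd_convex fun τ => (rep_D S _ τ).bd hU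
  have hWL : ∀ t f, WK S t (hχ.M ν (hY.avg δ f)) = hχ.M ν (hY.avg δ (WK S t f)) := fun t f => by
    rw [hχ.comm_M (rep_WK S t) fun p => by rw [S.r_W]]
    congr 1
    exact hY.wint_comm _ _ _ _ _ fun τ => WK_D S t _ τ f
  have hz : Dv (WK S) (hχ.M ν V) (hχ.M ν (hY.avg δ w)) :=
    hw.map ((hχ.M ν).comp (hY.avg δ)) fun t => hWL t U
  have hXW : ∀ᶠ t in 𝓝 (0 : ℝ), ‖XK S t (hχ.M ν V) - WK S (-t) (hχ.M ν V)‖ ≤ A * s * |t| := by
    filter_upwards [eventually_abs_le hδ,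
      eventually_abs_le (c := (1 / 4) ^ (2 * N + 1)) (by positivity)] with t h1 h2
    have e : WK S (-t) (hχ.M ν V) = hχ.M ν (XK S t V) := by
      rw [hWL, ← hinv]
      refine (hY.map_avg_congr hδ ((hχ.M ν).comp (XK S t)) (hχ.M ν) U (XK S t U)
        fun τ h0 hτ => hχ.M_congr ?_).symm
      filter_upwards [((rep_D S (Real.pi / 2) τ).comp (rep_XK S t)).coe U,
        ((rep_XK S t).comp (rep_D S (Real.pi / 2) τ)).coe U, loc_comm S t τ] with p h3 h4 h5 h6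
      have h7 := d_gt_of_cut S hs h6
      have h8 : S.K * (|t| + |τ|) ≤ S.K * (δ + δ) := by
        rw [abs_of_nonneg h0]
        gcongr
      have h9 : 0 < S.K * δ := by positivity
      rw [ContinuousLinearMap.comp_apply] at h3 h4
      refine h3.trans (Eq.trans ?_ h4.symm)
      rw [h5 (by linarith)]
    rw [e]
    refine hχ.norm_comm_le (rep_XK S t) hVb (by positivity) ?_
    refine (integral_cut_sub_le ν (S.r_meas s) ((S.r_meas s).comp (rep_XK S t).mp.measurable)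
      S.C_nonneg hsmall hN (η := s * |t|) (Eventually.of_forall fun p => S.r_X s hs t p)
      ((mul_le_of_le_one_left (abs_nonneg _) hs1).trans h2)).trans_eq ?_
    rw [← hA2]
    ring
  obtain ⟨x, hx, -⟩ := hX.exists_dv (v := hχ.M ν V) (C := A * s + ‖hχ.M ν (hY.avg δ w)‖) (by
    filter_upwards [hXW] with t ht
    have h1 := hz.norm_sub_le hW (-t)
    rw [abs_neg] at h1
    have h2 := norm_sub_le_norm_sub_add_norm_sub (XK S t (hχ.M ν V)) (WK S (-t) (hχ.M ν V))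
      (hχ.M ν V)
    linarith)
  obtain ⟨y, hy, hyn⟩ := hY.exists_dv (v := hχ.M ν V)
    (C := A * (S.K / s) + δ⁻¹ * ‖Dop (XK S) (RK S) (Real.pi / 2) δ U - U‖) (by
    filter_upwards [eventually_abs_le (c := (1 / 4) ^ (2 * N + 1) / (S.K / s)) (by positivity)]
      with t h2
    rw [le_div_iff₀ (by positivity)] at h2
    have h1 : ‖Dop (XK S) (RK S) (Real.pi / 2) t (hχ.M ν V) -
        hχ.M ν (Dop (XK S) (RK S) (Real.pi / 2) t V)‖ ≤ A * (S.K / s) * |t| := by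
      refine hχ.norm_comm_le (rep_D S _ t) hVb (by positivity) ?_
      refine (integral_cut_sub_le ν (S.r_meas s) ((S.r_meas s).comp (rep_D S _ t).mp.measurable)
        S.C_nonneg hsmall hN (η := S.K * |t| / s) (S.r_Y s hs t)
        (le_of_eq_of_le (by ring) h2)).trans_eq ?_
      rw [← hA2]
      ring
    have h3 := (hY.dv_avg δ U).norm_sub_le hY t
    rw [norm_smul, norm_inv, Complex.norm_real, Real.norm_of_nonneg hδ.le, ← hV] at h3
    have h4 := hχ.norm_M_le (Dop (XK S) (RK S) (Real.pi / 2) t V - V)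
    rw [map_sub] at h4
    have h5 := norm_sub_le_norm_sub_add_norm_sub (Dop (XK S) (RK S) (Real.pi / 2) t (hχ.M ν V))
      (hχ.M ν (Dop (XK S) (RK S) (Real.pi / 2) t V)) (hχ.M ν V)
    linarith)
  refine ⟨hχ.M ν V, x, y, _, loc_of_van S (d₀ := s * (1 / 4) ^ (2 * N)) (by positivity) ?_, hx, hy,
    hz, ?_, (hχ.norm_M_le _).trans (hY.norm_avg_le hδ w),
    Dv.norm_add_le hX hW (by positivity) hx hz hXW, hyn⟩
  · filter_upwards [hχ.coe_M V] with p h1 h2
    have h3 : cut N (S.r s p) = 0 := by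
      by_contra h
      exact absurd (d_gt_of_cut S hs h) (not_lt.2 h2)
    rw [h1, h3]
    simp
  · have h1 := hχ.norm_M_le (V - U)
    rw [map_sub] at h1
    have h2 := hχ.norm_M_sub_le hU hη
      ((integral_one_sub_cut_le ν (S.r_meas s) S.C_nonneg hsmall hN).trans hηC)
    have h3 := norm_sub_le_norm_sub_add_norm_sub (hχ.M ν V) (hχ.M ν U) U
    linarith

theorem appr {U w : L2 ν} (hU : Bd U) (hw : Dv (WK S) U w)
    (hinv : ∀ t, XK S t U = WK S (-t) U) : Appr (XK S) (RK S) (WK S) U ‖w‖ := by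
  intro κ hκ
  have hK := S.one_le_K
  have hC := S.C_nonneg
  have hY := ug_D S (Real.pi / 2)
  -- choice of `N`
  obtain ⟨N, hN, hN1, hN2⟩ : ∃ N : ℕ, 0 < N ∧ 9 * S.C / N * S.K ≤ κ / 2 ∧
      S.C * (1 / 16) ^ N ≤ (κ / 2) ^ 2 := by
    have h1 : Tendsto (fun N : ℕ => 9 * S.C / N * S.K) atTop (𝓝 0) := by
      simpa using (tendsto_const_div_atTop_nhds_zero_nat (9 * S.C)).mul_const S.K
    have h2 : Tendsto (fun N : ℕ => S.C * (1 / 16 : ℝ) ^ N) atTop (𝓝 0) := by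
      simpa using (tendsto_pow_atTop_nhds_zero_of_lt_one (r := (1 / 16 : ℝ)) (by norm_num)
        (by norm_num)).const_mul S.C
    exact ((eventually_gt_atTop 0).and ((h1.eventually (ge_mem_nhds (by positivity))).and
      (h2.eventually (ge_mem_nhds (by positivity))))).exists
  set A : ℝ := √(9 * S.C / N) with hA
  have hA0 : 0 ≤ A := Real.sqrt_nonneg _
  have hA2 : A ^ 2 = 9 * S.C / N := Real.sq_sqrt (by positivity)
  set c : ℝ := 4 * S.K / (1 / 4) ^ (2 * N) with hc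
  have hc0 : 0 < c := by positivity
  -- choice of `δ`, with `s = c δ`
  obtain ⟨δ, hδ, h1, h2, h3, h4⟩ : ∃ δ : ℝ, 0 < δ ∧ c * δ ≤ 1 ∧ A * (c * δ) ≤ κ ∧
      ‖hY.avg δ U - U‖ ≤ κ / 2 ∧
      A * c * ‖Dop (XK S) (RK S) (Real.pi / 2) δ U - U‖ ≤ κ / 2 := by
    have t1 : Tendsto (fun δ : ℝ => c * δ) (𝓝[>] 0) (𝓝 0) :=
      ((continuous_const.mul continuous_id).tendsto' 0 0 (by simp)).mono_left nhdsWithin_le_nhds
    have t2 : Tendsto (fun δ : ℝ => A * (c * δ)) (𝓝[>] 0) (𝓝 0) := by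
      simpa using t1.const_mul A
    have t3 := tendsto_iff_norm_sub_tendsto_zero.1 (hY.tendsto_avg U)
    have t4 : Tendsto (fun δ : ℝ => A * c * ‖Dop (XK S) (RK S) (Real.pi / 2) δ U - U‖) (𝓝[>] 0)
        (𝓝 0) := by
      have := tendsto_iff_norm_sub_tendsto_zero.1 ((hY.cont U).tendsto' 0 U (hY.zero U))
      simpa using (this.const_mul (A * c)).mono_left nhdsWithin_le_nhds
    have e0 : ∀ᶠ δ in 𝓝[>] (0 : ℝ), 0 < δ := self_mem_nhdsWithin
    exact (e0.and ((t1.eventually (ge_mem_nhds one_pos)).and ((t2.eventually (ge_mem_nhds hκ)).and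
      ((t3.eventually (ge_mem_nhds (by positivity))).and
        (t4.eventually (ge_mem_nhds (by positivity))))))).exists
  obtain ⟨v, x, y, z, hv, hx, hy, hz, b1, b2, b3, b4⟩ := exists_appr S hU hw hinv hN
    (s := c * δ) (δ := δ) (A := A) (η := κ / 2) (by positivity) h1 hδ
    (by rw [hc]; field_simp) hA0 hA2 (by positivity) hN2
  refine ⟨v, x, y, z, hv, hx, hy, hz, by linarith, b2, b3.trans h2, ?_⟩
  refine (mul_le_mul b3 b4 (norm_nonneg _) (by positivity)).trans ?_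
  have e : A * (c * δ) * (A * (S.K / (c * δ)) +
      δ⁻¹ * ‖Dop (XK S) (RK S) (Real.pi / 2) δ U - U‖) =
      A ^ 2 * S.K + A * c * ‖Dop (XK S) (RK S) (Real.pi / 2) δ U - U‖ := by
    field_simp
  rw [e, hA2]
  linarith

end Crest.Agent.R103A
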