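import Mathlib

/-!
# Row 103 (analysis half): unitary groups on a complex Hilbert space — definitions and basic API

`UG T` : strongly continuous unitary group.  `Dv T v x` : `x` is the derivative at `0` of
`t ↦ T t v`.  `hT.wint c hc b` : the operator `v ↦ ∫_0^b c τ • T τ v`; `hT.avg δ` : the average over
`[0, δ]`; `hT.P n` : the `n`-th Fourier projection of a `2π`-periodic group.
`Dop X ρ θ t = ρ (-θ) X t ρ θ` : the flow in the direction `θ`.
-/

set_option autoImplicit false
set_option linter.unusedSectionVars false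
open MeasureTheory Filter Topology

noncomputable section

namespace Crest.Agent.R103A

variable {H : Type*} [NormedAddCommGroup H] [InnerProductSpace ℂ H] [CompleteSpace H]

/-- a strongly continuous one-parameter unitary group -/
structure UG (T : ℝ → H →L[ℂ] H) : Prop where
  zero : ∀ v, T 0 v = v
  add : ∀ s t v, T (s + t) v = T s (T t v)
  norm : ∀ t v, ‖T t v‖ = ‖v‖
  cont : ∀ v, Continuous fun t => T t v

/-- `x` is the derivative of `v` along the group `T` -/
def Dv (T : ℝ → H →L[ℂ] H) (v x : H) : Prop := HasDerivAt (fun t : ℝ => T t v) x 0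

/-- the group in the direction `θ` -/
def Dop (X ρ : ℝ → H →L[ℂ] H) (θ t : ℝ) : H →L[ℂ] H := (ρ (-θ)).comp ((X t).comp (ρ θ))

omit [CompleteSpace H] in
lemma Dop_apply (X ρ : ℝ → H →L[ℂ] H) (θ t : ℝ) (v : H) :
    Dop X ρ θ t v = ρ (-θ) (X t (ρ θ v)) := rfl

/-- vectors on which the directional groups satisfy the laws of translations, locally -/
structure Loc (X ρ : ℝ → H →L[ℂ] H) (v : H) : Prop where
  dir : ∀ θ : ℝ, ∀ᶠ t in 𝓝 (0 : ℝ),
    Dop X ρ θ t v = Dop X ρ (Real.pi / 2) (t * Real.sin θ) (X (t * Real.cos θ) v)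
  comm : ∀ᶠ t in 𝓝 (0 : ℝ),
    Dop X ρ (Real.pi / 2) (-t) (X t v) = X t (Dop X ρ (Real.pi / 2) (-t) v)

namespace UG

variable {T : ℝ → H →L[ℂ] H}

omit [CompleteSpace H] in
lemma neg_apply (hT : UG T) (t : ℝ) (v : H) : T (-t) (T t v) = v := by
  rw [← hT.add, neg_add_cancel, hT.zero]

omit [CompleteSpace H] in
lemma apply_neg (hT : UG T) (t : ℝ) (v : H) : T t (T (-t) v) = v := by
  rw [← hT.add, add_neg_cancel, hT.zero]

omit [CompleteSpace H] in
lemma comm (hT : UG T) (s t : ℝ) (v : H) : T s (T t v) = T t (T s v) := by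
  rw [← hT.add, ← hT.add, add_comm]

omit [CompleteSpace H] in
lemma inner_map (hT : UG T) (t : ℝ) (v w : H) : inner ℂ (T t v) (T t w) = inner ℂ v w :=
  LinearIsometry.inner_map_map
    ({ toLinearMap := (T t : H →ₗ[ℂ] H), norm_map' := hT.norm t } : H →ₗᵢ[ℂ] H) v w

omit [CompleteSpace H] in
lemma inner_left (hT : UG T) (t : ℝ) (v w : H) : inner ℂ (T t v) w = inner ℂ v (T (-t) w) := by
  rw [← hT.inner_map (-t) (T t v) w, hT.neg_apply]

omit [CompleteSpace H] in
lemma inner_right (hT : UG T) (t : ℝ) (v w : H) : inner ℂ v (T t w) = inner ℂ (T (-t) v) w := by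
  rw [hT.inner_left, neg_neg]

omit [CompleteSpace H] in
/-- joint continuity -/
lemma cont₂ (hT : UG T) {α : Type*} [TopologicalSpace α] {a : α → ℝ} {v : α → H}
    (ha : Continuous a) (hv : Continuous v) : Continuous fun x => T (a x) (v x) := by
  refine continuous_iff_continuousAt.2 fun x => ?_
  have h1 : Tendsto (fun y => T (a y) (v x)) (𝓝 x) (𝓝 (T (a x) (v x))) :=
    ((hT.cont (v x)).comp ha).continuousAt
  have h2 : Tendsto (fun y => T (a y) (v y - v x)) (𝓝 x) (𝓝 0) := by
    rw [tendsto_zero_iff_norm_tendsto_zero]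
    simp only [hT.norm]
    exact tendsto_iff_norm_sub_tendsto_zero.1 hv.continuousAt
  have h3 := h2.add h1
  simp only [map_sub, sub_add_cancel, zero_add] at h3
  exact h3

omit [CompleteSpace H] in
lemma dop {X ρ : ℝ → H →L[ℂ] H} (hX : UG X) (hρ : UG ρ) (θ : ℝ) : UG (Dop X ρ θ) where
  zero v := by rw [Dop_apply, hX.zero, hρ.neg_apply]
  add s t v := by simp only [Dop_apply, hρ.apply_neg, hX.add]
  norm t v := by rw [Dop_apply, hρ.norm, hX.norm, hρ.norm]
  cont v := (ρ (-θ)).continuous.comp (hX.cont _)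

omit [CompleteSpace H] in
lemma cont_smul (hT : UG T) {c : ℝ → ℂ} (hc : Continuous c) (v : H) :
    Continuous fun τ => c τ • T τ v := hc.smul (hT.cont v)

/-- weighted integrals of the group -/
def wint (hT : UG T) (c : ℝ → ℂ) (hc : Continuous c) (b : ℝ) : H →L[ℂ] H :=
  LinearMap.mkContinuous
    { toFun := fun v => ∫ τ in (0 : ℝ)..b, c τ • T τ v
      map_add' := fun v w => by
        simp only [map_add, smul_add]
        exact intervalIntegral.integral_add ((hT.cont_smul hc v).intervalIntegrable _ _)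
          ((hT.cont_smul hc w).intervalIntegrable _ _)
      map_smul' := fun a v => by
        simp only [map_smul, RingHom.id_apply, smul_comm (c _) a]
        exact intervalIntegral.integral_smul _ _ }
    |∫ τ in (0 : ℝ)..b, ‖c τ‖| fun v => by
      have h := intervalIntegral.norm_integral_le_abs_integral_norm
        (f := fun τ => c τ • T τ v) (μ := volume) (a := 0) (b := b)
      simp only [norm_smul, hT.norm, intervalIntegral.integral_mul_const, abs_mul, abs_norm] at h
      exact h

lemma wint_apply (hT : UG T) (c : ℝ → ℂ) (hc : Continuous c) (b : ℝ) (v : H) :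
    hT.wint c hc b v = ∫ τ in (0 : ℝ)..b, c τ • T τ v := rfl

lemma norm_wint_le (hT : UG T) (c : ℝ → ℂ) (hc : Continuous c) (b : ℝ) (v : H) :
    ‖hT.wint c hc b v‖ ≤ |∫ τ in (0 : ℝ)..b, ‖c τ‖| * ‖v‖ := by
  have h := intervalIntegral.norm_integral_le_abs_integral_norm
    (f := fun τ => c τ • T τ v) (μ := volume) (a := 0) (b := b)
  simp only [norm_smul, hT.norm, intervalIntegral.integral_mul_const, abs_mul, abs_norm] at h
  exact h

/-- bounded operators pass under the integral -/
lemma map_wint (hT : UG T) (c : ℝ → ℂ) (hc : Continuous c) (b : ℝ) (L : H →L[ℂ] H) (v : H) :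
    L (hT.wint c hc b v) = ∫ τ in (0 : ℝ)..b, c τ • L (T τ v) := by
  rw [wint_apply, ← L.intervalIntegral_comp_comm ((hT.cont_smul hc v).intervalIntegrable _ _)]
  simp only [map_smul]

lemma inner_wint (hT : UG T) (c : ℝ → ℂ) (hc : Continuous c) (b : ℝ) (g v : H) :
    inner ℂ g (hT.wint c hc b v) = ∫ τ in (0 : ℝ)..b, c τ * inner ℂ g (T τ v) := by
  have h := (innerSL ℂ g).intervalIntegral_comp_comm (μ := volume) (a := 0) (b := b)
    ((hT.cont_smul hc v).intervalIntegrable _ _)
  simp only [innerSL_apply_apply, inner_smul_right] at h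
  rw [wint_apply, ← h]

/-- an operator commuting with the group commutes with the weighted integrals -/
lemma wint_comm (hT : UG T) (c : ℝ → ℂ) (hc : Continuous c) (b : ℝ) (L : H →L[ℂ] H) (v : H)
    (h : ∀ τ, L (T τ v) = T τ (L v)) : L (hT.wint c hc b v) = hT.wint c hc b (L v) := by
  rw [map_wint, wint_apply]
  simp only [h]

/-- the average over `[0, δ]` -/
def avg (hT : UG T) (δ : ℝ) : H →L[ℂ] H := hT.wint (fun _ => (δ : ℂ)⁻¹) continuous_const δ

/-- the weight of the `n`-th Fourier projection -/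
def pw (n : ℤ) (φ : ℝ) : ℂ := (2 * Real.pi : ℂ)⁻¹ * Complex.exp (-(n * φ) * Complex.I)

lemma continuous_pw (n : ℤ) : Continuous (pw n) := by unfold pw; fun_prop

/-- the `n`-th Fourier projection -/
def P (hT : UG T) (n : ℤ) : H →L[ℂ] H := hT.wint (pw n) (continuous_pw n) (2 * Real.pi)

end UG

end Crest.Agent.R103A
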