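import Crest.Agent.R103A.Defs

/-!
# Row 103 (analysis half): derivatives along unitary groups, averages
The real structure on `H` is `NormedSpace.complexToReal` (`Complex.coe_smul`).
-/

set_option autoImplicit false
set_option linter.unusedSectionVars false
open MeasureTheory Filter Topology

noncomputable section

namespace Crest.Agent.R103A

variable {H : Type*} [NormedAddCommGroup H] [InnerProductSpace ℂ H] [CompleteSpace H]

variable {T T' : ℝ → H →L[ℂ] H}

lemma Hil_map_smul (L : H →L[ℂ] H) (r : ℝ) (w : H) : L (r • w) = r • L w := by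
  rw [← Complex.coe_smul, map_smul, Complex.coe_smul]

lemma Hil_slope {v x : H} (hT : UG T) (h : Dv T v x) :
    Tendsto (fun t : ℝ => t⁻¹ • (T t v - v)) (𝓝[≠] 0) (𝓝 x) := by
  have h1 := HasDerivAt.tendsto_slope_zero h
  simpa only [zero_add, hT.zero] using h1

lemma Hil_clm {f : ℝ → H} {x : H} {t : ℝ} (h : HasDerivAt f x t) (L : H →L[ℂ] H) :
    HasDerivAt (fun s => L (f s)) (L x) t := by
  rw [hasDerivAt_iff_tendsto_slope_zero] at h ⊢
  have h1 := (L.continuous.tendsto x).comp h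
  refine h1.congr fun s => ?_
  simp only [Function.comp, Hil_map_smul, map_sub]

lemma Hil_scale {v x : H} (h : Dv T v x) (a : ℝ) :
    HasDerivAt (fun t : ℝ => T (t * a) v) (a • x) 0 := by
  have h1 : HasDerivAt (fun t : ℝ => t * a) a 0 := by
    simpa using (hasDerivAt_id (0 : ℝ)).mul_const a
  exact HasDerivAt.scomp_of_eq (0 : ℝ) h h1 (by simp)

lemma Hil_tendsto (hT : UG T) {α : Type*} {l : Filter α} {a : α → ℝ} {q : α → H} {q₀ : H}
    (ha : Tendsto a l (𝓝 0)) (hq : Tendsto q l (𝓝 q₀)) :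
    Tendsto (fun y => T (a y) (q y)) l (𝓝 q₀) := by
  have h1 : Continuous fun p : ℝ × H => T p.1 p.2 := hT.cont₂ continuous_fst continuous_snd
  have h2 := (h1.tendsto (0, q₀)).comp (ha.prodMk_nhds hq)
  simpa only [Function.comp_def, hT.zero] using h2

/-- `T (t + h) v = T t (T h v)`. -/
theorem Dv.hasDerivAt (hT : UG T) {v x : H} (h : Dv T v x) (t : ℝ) :
    HasDerivAt (fun s : ℝ => T s v) (T t x) t := by
  rw [hasDerivAt_iff_tendsto_slope_zero]
  have h1 := ((T t).continuous.tendsto x).comp (Hil_slope hT h)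
  refine h1.congr fun s => ?_
  simp only [Function.comp, Hil_map_smul, map_sub, hT.add]

/-- mean value inequality -/
theorem Dv.norm_sub_le (hT : UG T) {v x : H} (h : Dv T v x) (t : ℝ) :
    ‖T t v - v‖ ≤ |t| * ‖x‖ := by
  have h1 := Convex.norm_image_sub_le_of_norm_hasDerivWithin_le (𝕜 := ℝ) (s := Set.univ)
    (f := fun s : ℝ => T s v) (f' := fun s => T s x) (C := ‖x‖) (x := 0) (y := t)
    (fun s _ => (h.hasDerivAt hT s).hasDerivWithinAt) (fun s _ => (hT.norm s x).le)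
    convex_univ trivial trivial
  simpa only [hT.zero, sub_zero, Real.norm_eq_abs, mul_comm] using h1

/-- operators commuting with the group on `v` -/
theorem Dv.map {v x : H} (h : Dv T v x) (L : H →L[ℂ] H) (hL : ∀ t, T' t (L v) = L (T t v)) :
    Dv T' (L v) (L x) := by
  unfold Dv
  simp only [hL]
  exact Hil_clm h L

/-- `t ↦ T t v - T' (-t) v` has derivative `x + x'` at `0` (`HasDerivAt.le_of_lip'`). -/
theorem Dv.norm_add_le (hT : UG T) (hT' : UG T') {v x x' : H} {ε : ℝ} (hε : 0 ≤ ε)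
    (h : Dv T v x) (h' : Dv T' v x')
    (hle : ∀ᶠ t in 𝓝 (0 : ℝ), ‖T t v - T' (-t) v‖ ≤ ε * |t|) : ‖x + x'‖ ≤ ε := by
  have h1 := HasDerivAt.sub h (Hil_scale h' (-1))
  have h2 : x - (-1 : ℝ) • x' = x + x' := by rw [neg_smul, one_smul, sub_neg_eq_add]
  rw [h2] at h1
  refine h1.le_of_lip' hε ?_
  filter_upwards [hle] with t ht
  simpa only [Pi.sub_apply, zero_mul, hT.zero, hT'.zero, sub_self, sub_zero, mul_neg, mul_one,
    neg_zero, Real.norm_eq_abs] using ht

/-- `T' (b t) (T (a t) v) - v = T' (b t) (T (a t) v - v) + (T' (b t) v - v)`, and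
`T' (b t) q → q₀` when `q → q₀`, `t → 0` (`UG.cont₂`, `hasDerivAt_iff_tendsto_slope_zero`). -/
theorem Dv.comp (hT : UG T) (hT' : UG T') {v x y : H} (h : Dv T v x) (h' : Dv T' v y) (a b : ℝ) :
    HasDerivAt (fun t : ℝ => T' (t * b) (T (t * a) v)) ((a : ℂ) • x + (b : ℂ) • y) 0 := by
  have h1 := (Hil_scale h a).tendsto_slope_zero
  have h2 := (Hil_scale h' b).tendsto_slope_zero
  simp only [zero_add, zero_mul, hT.zero, hT'.zero] at h1 h2
  have h3 : Tendsto (fun t : ℝ => t * b) (𝓝[≠] 0) (𝓝 0) := by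
    have : Tendsto (fun t : ℝ => t * b) (𝓝 0) (𝓝 (0 * b)) :=
      (continuous_id.mul continuous_const).tendsto 0
    rw [zero_mul] at this
    exact this.mono_left nhdsWithin_le_nhds
  have h4 := (Hil_tendsto hT' h3 h1).add h2
  rw [hasDerivAt_iff_tendsto_slope_zero, Complex.coe_smul, Complex.coe_smul]
  refine h4.congr fun t => ?_
  simp only [zero_add, zero_mul, hT.zero, hT'.zero, Hil_map_smul, map_sub, ← smul_add]
  congr 1
  abel

/-- `⟪(T t - 1) v, (T' t - 1) v'⟫ = ⟪(T' (-t) - 1) (T t - 1) v, v'⟫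
= ⟪(T t - 1) (T' (-t) - 1) v, v'⟫ = ⟪(T' (-t) - 1) v, (T (-t) - 1) v'⟫`; divide by `t²`, `t → 0`. -/
theorem Dv.inner_symm (hT : UG T) (hT' : UG T') {v v' x y x' y' : H}
    (hx : Dv T v x) (hy : Dv T' v y) (hx' : Dv T v' x') (hy' : Dv T' v' y')
    (hc : ∀ᶠ t in 𝓝 (0 : ℝ), T' (-t) (T t v) = T t (T' (-t) v)) :
    inner ℂ x y' = inner ℂ y x' := by
  have hneg : Tendsto (fun t : ℝ => -t) (𝓝[≠] 0) (𝓝[≠] 0) := by
    refine tendsto_nhdsWithin_iff.2 ⟨?_, ?_⟩
    · have : Tendsto (fun t : ℝ => -t) (𝓝 0) (𝓝 (-0)) := continuous_neg.tendsto 0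
      rw [neg_zero] at this
      exact this.mono_left nhdsWithin_le_nhds
    · filter_upwards [self_mem_nhdsWithin] with t ht
      simpa using ht
  have h1 := (Hil_slope hT hx).inner (𝕜 := ℂ) (Hil_slope hT' hy')
  have h2 := ((Hil_slope hT' hy).comp hneg).inner (𝕜 := ℂ) ((Hil_slope hT hx').comp hneg)
  refine tendsto_nhds_unique_of_eventuallyEq h1 h2 ?_
  filter_upwards [hc.filter_mono nhdsWithin_le_nhds] with t ht
  simp only [Function.comp, inv_neg, neg_smul, inner_neg_neg, ← Complex.coe_smul, inner_smul_left,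
    inner_smul_right]
  congr 2
  simp only [inner_sub_left, inner_sub_right]
  rw [hT'.inner_right t (T t v) v', ht, hT.inner_left t (T' (-t) v) v', hT.inner_left t v v',
    hT'.inner_right t v v']
  ring

theorem UG.norm_avg_le (hT : UG T) {δ : ℝ} (hδ : 0 < δ) (v : H) : ‖hT.avg δ v‖ ≤ ‖v‖ := by
  have h := hT.norm_wint_le (fun _ => (δ : ℂ)⁻¹) continuous_const δ v
  have h1 : |∫ _ in (0 : ℝ)..δ, ‖(δ : ℂ)⁻¹‖| = 1 := by
    rw [intervalIntegral.integral_const, norm_inv, Complex.norm_real, Real.norm_eq_abs,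
      abs_of_pos hδ, sub_zero, smul_eq_mul, mul_inv_cancel₀ hδ.ne', abs_one]
  rw [h1, one_mul] at h
  exact h

lemma Hil_avg_eq (hT : UG T) (δ : ℝ) (v : H) :
    hT.avg δ v = (δ : ℂ)⁻¹ • ∫ τ in (0 : ℝ)..δ, T τ v := by
  unfold UG.avg
  rw [hT.wint_apply, intervalIntegral.integral_smul]

/-- `T t (avg δ v) = δ⁻¹ ∫_t^{t+δ} T τ v`; fundamental theorem of calculus. -/
theorem UG.dv_avg (hT : UG T) (δ : ℝ) (v : H) :
    Dv T (hT.avg δ v) ((δ : ℂ)⁻¹ • (T δ v - v)) := by
  have hc := hT.cont v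
  have hF : ∀ b : ℝ, HasDerivAt (fun u => ∫ τ in (0 : ℝ)..u, T τ v) (T b v) b := fun b =>
    (hc.integral_hasStrictDerivAt 0 b).hasDerivAt
  have h1 : HasDerivAt (fun u : ℝ => ∫ τ in (0 : ℝ)..(u + δ), T τ v) (T δ v) 0 := by
    have h2 : HasDerivAt (fun u : ℝ => u + δ) 1 0 := (hasDerivAt_id (0 : ℝ)).add_const δ
    have h3 := HasDerivAt.scomp_of_eq (0 : ℝ) (hF δ) h2 (by simp)
    rw [one_smul] at h3
    exact h3
  have h4 := Hil_clm (h1.sub (hF 0)) ((δ : ℂ)⁻¹ • ContinuousLinearMap.id ℂ H)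
  rw [hT.zero] at h4
  unfold Dv
  refine HasDerivAt.congr_of_eventuallyEq h4 (Eventually.of_forall fun t => ?_)
  beta_reduce
  rw [Hil_avg_eq, map_smul, ← (T t).intervalIntegral_comp_comm (hc.intervalIntegrable _ _)]
  simp only [← hT.add, Pi.sub_apply, smul_apply, ContinuousLinearMap.id_apply]
  rw [intervalIntegral.integral_comp_add_left (fun τ => T τ v) t, add_zero,
    intervalIntegral.integral_interval_sub_left (hc.intervalIntegrable _ _)
      (hc.intervalIntegrable _ _)]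

theorem UG.tendsto_avg (hT : UG T) (v : H) :
    Tendsto (fun δ => hT.avg δ v) (𝓝[>] 0) (𝓝 v) := by
  have hF : HasDerivAt (fun u => ∫ τ in (0 : ℝ)..u, T τ v) (T 0 v) 0 :=
    ((hT.cont v).integral_hasStrictDerivAt 0 0).hasDerivAt
  have h1 := hF.tendsto_slope_zero_right
  rw [hT.zero] at h1
  refine h1.congr fun δ => ?_
  rw [Hil_avg_eq, zero_add, intervalIntegral.integral_same, sub_zero, ← Complex.coe_smul,
    Complex.ofReal_inv]

/-- `Convex.set_average_mem` -/
theorem UG.avg_mem (hT : UG T) {δ : ℝ} (hδ : 0 < δ) (v : H) {S : Set H} (hS : IsClosed S)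
    (hconv : ∀ a ∈ S, ∀ b ∈ S, ∀ r : ℝ, 0 ≤ r → r ≤ 1 → (r : ℂ) • a + ((1 - r : ℝ) : ℂ) • b ∈ S)
    (hv : ∀ τ, T τ v ∈ S) : hT.avg δ v ∈ S := by
  have hC : Convex ℝ S := by
    intro a ha b hb r s hr hs hrs
    have h1 := hconv a ha b hb r hr (by linarith)
    rw [show 1 - r = s by linarith, Complex.coe_smul, Complex.coe_smul] at h1
    exact h1
  have h2 := hC.set_average_mem (μ := volume) (t := Set.Ioc (0 : ℝ) δ) (f := fun τ => T τ v) hS
    (by simp [hδ]) (by simp) (Eventually.of_forall hv)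
    ((hT.cont v).integrableOn_Icc.mono_set Set.Ioc_subset_Icc_self)
  rw [setAverage_eq, Real.volume_real_Ioc_of_le hδ.le, sub_zero,
    ← intervalIntegral.integral_of_le hδ.le] at h2
  rw [Hil_avg_eq, ← Complex.ofReal_inv, Complex.coe_smul]
  exact h2

/-- operators that agree along the orbit segment agree on the average (`UG.map_wint`) -/
theorem UG.map_avg_congr (hT : UG T) {δ : ℝ} (hδ : 0 < δ) (L L' : H →L[ℂ] H) (v v' : H)
    (h : ∀ τ, 0 ≤ τ → τ ≤ δ → L (T τ v) = L' (T τ v')) : L (hT.avg δ v) = L' (hT.avg δ v') := by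
  unfold UG.avg
  rw [hT.map_wint, hT.map_wint]
  refine intervalIntegral.integral_congr fun τ hτ => ?_
  rw [Set.uIcc_of_le hδ.le] at hτ
  simp only [h τ hτ.1 hτ.2]

end Crest.Agent.R103A
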