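import Crest.Agent.R103A.Defs
import Crest.Agent.R103D.Sys

/-!
# Row 103 (analysis half): Koopman operators and multiplication operators on `L²`
-/

set_option autoImplicit false
set_option linter.unusedSectionVars false
open MeasureTheory Filter Topology
open scoped ENNReal

noncomputable section

namespace Crest.Agent.R103A

open Crest.Agent.R103D

variable {Ω : Type*} [MeasurableSpace Ω] {ν : Measure Ω}

/-- complex `L²` -/
abbrev L2 (ν : Measure Ω) : Type _ := Lp ℂ 2 ν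

/-- `L` is the Koopman operator of the measure preserving map `F` -/
structure Rep (ν : Measure Ω) (L : L2 ν →L[ℂ] L2 ν) (F : Ω → Ω) : Prop where
  mp : MeasurePreserving F ν ν
  coe : ∀ f : L2 ν, ∀ᵐ p ∂ν, L f p = f (F p)

/-- the Koopman operator -/
def K (F : Ω → Ω) (hF : MeasurePreserving F ν ν) : L2 ν →L[ℂ] L2 ν :=
  (Lp.compMeasurePreservingₗᵢ ℂ F hF).toContinuousLinearMap

lemma rep_K (F : Ω → Ω) (hF : MeasurePreserving F ν ν) : Rep ν (K F hF) F :=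
  ⟨hF, fun f => Lp.coeFn_compMeasurePreserving f hF⟩

lemma norm_K (F : Ω → Ω) (hF : MeasurePreserving F ν ν) (f : L2 ν) : ‖K F hF f‖ = ‖f‖ :=
  Lp.norm_compMeasurePreserving f hF

namespace Rep

variable {L L' : L2 ν →L[ℂ] L2 ν} {F F' : Ω → Ω}

lemma ae (h : Rep ν L F) {Q : Ω → Prop} (hQ : ∀ᵐ p ∂ν, Q p) : ∀ᵐ p ∂ν, Q (F p) :=
  h.mp.quasiMeasurePreserving.ae hQ

lemma comp (h : Rep ν L F) (h' : Rep ν L' F') : Rep ν (L'.comp L) fun p => F (F' p) :=
  ⟨h.mp.comp h'.mp, fun f => by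
    filter_upwards [h'.coe (L f), h'.ae (h.coe f)] with p h1 h2
    rw [ContinuousLinearMap.comp_apply, h1, h2]⟩

lemma eq_of_ae (h : Rep ν L F) (h' : Rep ν L' F') (f : L2 ν)
    (hf : ∀ᵐ p ∂ν, f (F p) = f (F' p)) : L f = L' f := by
  ext1
  filter_upwards [h.coe f, h'.coe f, hf] with p h1 h2 h3
  rw [h1, h2, h3]

lemma eq_of_eq (h : Rep ν L F) (h' : Rep ν L' F') (hF : ∀ p, F p = F' p) (f : L2 ν) :
    L f = L' f :=
  h.eq_of_ae h' f (Eventually.of_forall fun p => by rw [hF])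

lemma congr (h : Rep ν L F) (hF : ∀ p, F p = F' p) : Rep ν L F' := by
  rwa [← (funext hF : F = F')]

end Rep

lemma rep_id : Rep ν (ContinuousLinearMap.id ℂ (L2 ν)) fun p => p :=
  ⟨MeasurePreserving.id ν, fun _ => Eventually.of_forall fun _ => rfl⟩

/-- the Koopman group of a flow -/
def KF {T : ℝ → Ω → Ω} (hT : MFlow ν T) (t : ℝ) : L2 ν →L[ℂ] L2 ν := K (T t) (hT.mp t)

lemma rep_KF {T : ℝ → Ω → Ω} (hT : MFlow ν T) (t : ℝ) : Rep ν (KF hT t) (T t) := rep_K _ _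

lemma ug_KF {T : ℝ → Ω → Ω} (hT : MFlow ν T) : UG (KF hT) := by
  have hz : ∀ v, KF hT 0 v = v := fun v => (rep_KF hT 0).eq_of_eq rep_id hT.zero v
  have ha : ∀ s t v, KF hT (s + t) v = KF hT s (KF hT t v) := fun s t v =>
    (rep_KF hT (s + t)).eq_of_eq ((rep_KF hT t).comp (rep_KF hT s))
      (fun p => by rw [add_comm, hT.add]) v
  refine ⟨hz, ha, fun t v => norm_K _ _ v, fun v => continuous_iff_continuousAt.2 fun t => ?_⟩
  have h0 : Tendsto (fun s => KF hT s v) (𝓝 0) (𝓝 v) := by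
    rw [Lp.tendsto_Lp_iff_tendsto_eLpNorm']
    refine (hT.cont v (Lp.memLp v)).congr fun s => eLpNorm_congr_ae ?_
    filter_upwards [(rep_KF hT s).coe v] with p hp
    rw [Pi.sub_apply, hp]
  have h1 : Tendsto (fun s : ℝ => s - t) (𝓝 t) (𝓝 0) :=
    (continuous_sub_right t).tendsto' t 0 (sub_self t)
  have h2 := ((KF hT t).continuous.tendsto v).comp (h0.comp h1)
  refine h2.congr fun s => ?_
  simp only [Function.comp_apply, ← ha, add_sub_cancel]

lemma UG.neg {H : Type*} [NormedAddCommGroup H] [InnerProductSpace ℂ H] {T : ℝ → H →L[ℂ] H}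
    (hT : UG T) : UG fun t => T (-t) where
  zero v := by rw [neg_zero, hT.zero]
  add s t v := by rw [neg_add, hT.add]
  norm t v := hT.norm _ v
  cont v := (hT.cont v).comp continuous_neg

/-! ### norms -/

lemma norm_sq_eq (f : L2 ν) : ‖f‖ ^ 2 = ∫ p, ‖f p‖ ^ 2 ∂ν := by
  have h1 : ((‖f‖ ^ 2 : ℝ) : ℂ) = ∫ p, ((‖f p‖ ^ 2 : ℝ) : ℂ) ∂ν := by
    have := inner_self_eq_norm_sq_to_K (𝕜 := ℂ) f
    rw [L2.inner_def] at this
    push_cast
    refine this.symm.trans ?_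
    simp only [inner_self_eq_norm_sq_to_K]
    rfl
  rw [integral_complex_ofReal] at h1
  exact_mod_cast h1

lemma norm_le_of_ae [IsFiniteMeasure ν] (f : L2 ν) {g : Ω → ℝ} (hg : Measurable g)
    (hb : ∀ p, |g p| ≤ 1) (h : ∀ᵐ p ∂ν, ‖f p‖ ≤ |g p|) {η : ℝ} (hη : 0 ≤ η)
    (hi : ∫ p, g p ^ 2 ∂ν ≤ η ^ 2) : ‖f‖ ≤ η := by
  refine (pow_le_pow_iff_left₀ (norm_nonneg _) hη two_ne_zero).1 (le_trans ?_ hi)
  rw [norm_sq_eq]
  refine integral_mono_of_nonneg (Eventually.of_forall fun p => by positivity) ?_ ?_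
  · refine Integrable.of_bound (hg.pow_const 2).aestronglyMeasurable 1
      (Eventually.of_forall fun p => ?_)
    rw [Real.norm_eq_abs, abs_pow]
    exact pow_le_one₀ (abs_nonneg _) (hb p)
  · filter_upwards [h] with p hp
    rw [← sq_abs (g p)]
    exact pow_le_pow_left₀ (norm_nonneg _) hp 2

/-! ### bounded functions -/

/-- bounded by one -/
def Bd (f : L2 ν) : Prop := ∀ᵐ p ∂ν, ‖f p‖ ≤ 1

lemma Rep.bd {L : L2 ν →L[ℂ] L2 ν} {F : Ω → Ω} (h : Rep ν L F) {f : L2 ν} (hf : Bd f) :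
    Bd (L f) := by
  filter_upwards [h.coe f, h.ae hf] with p h1 h2
  rwa [h1]

lemma isClosed_bd : IsClosed {f : L2 ν | Bd f} := by
  refine IsSeqClosed.isClosed fun f g hf hg => ?_
  obtain ⟨ns, -, h⟩ := (tendstoInMeasure_of_tendsto_Lp hg).exists_seq_tendsto_ae
  have h2 : ∀ᵐ p ∂ν, ∀ i, ‖f i p‖ ≤ 1 := ae_all_iff.2 hf
  filter_upwards [h, h2] with p h1 h3
  exact le_of_tendsto' h1.norm fun i => h3 _

lemma bd_convex (a : L2 ν) (ha : a ∈ {f : L2 ν | Bd f}) (b : L2 ν) (hb : b ∈ {f : L2 ν | Bd f})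
    (r : ℝ) (h0 : 0 ≤ r) (h1 : r ≤ 1) :
    (r : ℂ) • a + ((1 - r : ℝ) : ℂ) • b ∈ {f : L2 ν | Bd f} := by
  filter_upwards [ha, hb, Lp.coeFn_add ((r : ℂ) • a) (((1 - r : ℝ) : ℂ) • b),
    Lp.coeFn_smul (r : ℂ) a, Lp.coeFn_smul ((1 - r : ℝ) : ℂ) b] with p h2 h3 h4 h5 h6
  rw [h4, Pi.add_apply, h5, h6, Pi.smul_apply, Pi.smul_apply]
  refine (norm_add_le _ _).trans ?_
  rw [norm_smul, norm_smul, Complex.norm_real, Complex.norm_real, Real.norm_of_nonneg h0,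
    Real.norm_of_nonneg (by linarith)]
  nlinarith

/-! ### multiplication operators -/

/-- measurable functions with values in `[0, 1]` -/
structure W01 (g : Ω → ℝ) : Prop where
  meas : Measurable g
  nonneg : ∀ p, 0 ≤ g p
  le_one : ∀ p, g p ≤ 1

lemma W01.memLp {g : Ω → ℝ} (hg : W01 g) : MemLp (fun p => (g p : ℂ)) ∞ ν :=
  memLp_top_of_bound (Complex.measurable_ofReal.comp hg.meas).aestronglyMeasurable 1
    (Eventually.of_forall fun p => by
      rw [Complex.norm_real, Real.norm_of_nonneg (hg.nonneg p)]; exact hg.le_one p)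

/-- multiplication by `g` -/
def W01.M {g : Ω → ℝ} (hg : W01 g) (ν : Measure Ω) : L2 ν →L[ℂ] L2 ν :=
  (ContinuousLinearMap.mul ℂ ℂ).holderL ν ∞ 2 2 (hg.memLp.toLp _)

namespace W01

variable {g : Ω → ℝ} (hg : W01 g)

lemma coe_M (f : L2 ν) : ∀ᵐ p ∂ν, hg.M ν f p = g p * f p := by
  filter_upwards [(ContinuousLinearMap.mul ℂ ℂ).coeFn_holder (r := 2) (hg.memLp.toLp _) f,
    (hg.memLp (ν := ν)).coeFn_toLp] with p h1 h2
  rw [ContinuousLinearMap.mul_apply', h2] at h1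
  exact h1

lemma norm_M_le (f : L2 ν) : ‖hg.M ν f‖ ≤ ‖f‖ := by
  refine Lp.norm_le_norm_of_ae_le ?_
  filter_upwards [hg.coe_M f] with p h
  rw [h, norm_mul, Complex.norm_real, Real.norm_of_nonneg (hg.nonneg p)]
  exact mul_le_of_le_one_left (norm_nonneg _) (hg.le_one p)

lemma M_congr {f f' : L2 ν} (h : ∀ᵐ p ∂ν, g p ≠ 0 → f p = f' p) : hg.M ν f = hg.M ν f' := by
  ext1
  filter_upwards [hg.coe_M f, hg.coe_M f', h] with p h1 h2 h3
  rw [h1, h2]
  by_cases h0 : g p = 0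
  · simp [h0]
  · rw [h3 h0]

lemma comm_M {L : L2 ν →L[ℂ] L2 ν} {F : Ω → Ω} (h : Rep ν L F) (hF : ∀ p, g (F p) = g p)
    (f : L2 ν) : L (hg.M ν f) = hg.M ν (L f) := by
  ext1
  filter_upwards [h.coe (hg.M ν f), h.ae (hg.coe_M f), hg.coe_M (L f), h.coe f] with p h1 h2 h3 h4
  rw [h1, h2, h3, h4, hF]

lemma norm_comm_le [IsFiniteMeasure ν] {L : L2 ν →L[ℂ] L2 ν} {F : Ω → Ω} (h : Rep ν L F)
    {f : L2 ν} (hf : Bd f) {η : ℝ} (hη : 0 ≤ η) (hi : ∫ p, (g (F p) - g p) ^ 2 ∂ν ≤ η ^ 2) :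
    ‖L (hg.M ν f) - hg.M ν (L f)‖ ≤ η := by
  refine norm_le_of_ae _ (g := fun p => g (F p) - g p)
    ((hg.meas.comp h.mp.measurable).sub hg.meas) (fun p => ?_) ?_ hη hi
  · have := hg.nonneg p
    have := hg.nonneg (F p)
    have := hg.le_one p
    have := hg.le_one (F p)
    rw [abs_le]
    constructor <;> linarith
  · filter_upwards [h.coe (hg.M ν f), h.ae (hg.coe_M f), hg.coe_M (L f), h.coe f,
      Lp.coeFn_sub (L (hg.M ν f)) (hg.M ν (L f)), h.ae hf] with p h1 h2 h3 h4 h5 h6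
    rw [h5, Pi.sub_apply, h1, h2, h3, h4, ← sub_mul, norm_mul, ← Complex.ofReal_sub,
      Complex.norm_real, Real.norm_eq_abs]
    exact mul_le_of_le_one_right (abs_nonneg _) h6

lemma norm_M_sub_le [IsFiniteMeasure ν] {f : L2 ν} (hf : Bd f) {η : ℝ} (hη : 0 ≤ η)
    (hi : ∫ p, (1 - g p) ^ 2 ∂ν ≤ η ^ 2) : ‖hg.M ν f - f‖ ≤ η := by
  refine norm_le_of_ae _ (g := fun p => 1 - g p) (measurable_const.sub hg.meas)
    (fun p => ?_) ?_ hη hi
  · have := hg.nonneg p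
    have := hg.le_one p
    rw [abs_le]
    constructor <;> linarith
  · filter_upwards [hg.coe_M f, Lp.coeFn_sub (hg.M ν f) f, hf] with p h1 h2 h3
    have e : (g p : ℂ) * f p - f p = -(((1 - g p : ℝ) : ℂ) * f p) := by push_cast; ring
    rw [h2, Pi.sub_apply, h1, e, norm_neg, norm_mul, Complex.norm_real, Real.norm_eq_abs]
    exact mul_le_of_le_one_right (abs_nonneg _) h3

end W01

end Crest.Agent.R103A
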