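import Crest.Agent.R103A.Approx

/-!
# Row 103 (analysis half): the theorem `AnalysisThm`
-/

set_option autoImplicit false
set_option linter.unusedSectionVars false
open MeasureTheory Filter Topology

noncomputable section

namespace Crest.Agent.R103A

open Crest.Agent.R103D

variable {Ω : Type*} [MeasurableSpace Ω] {ν : Measure Ω} [IsFiniteMeasure ν]

/-- a bounded function invariant under the diagonal flow is invariant under every directional
flow -/
theorem dop_fixed (S : Sys Ω ν) {u : L2 ν} (hu : Bd u) (hinv : ∀ t, WK S t (XK S t u) = u)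
    (θ t : ℝ) : Dop (XK S) (RK S) θ t u = u := by
  have hW := ug_WK S
  have h1 : ∀ δ : ℝ, 0 < δ → Dop (XK S) (RK S) θ t (hW.avg δ u) = hW.avg δ u := fun δ hδ => by
    refine core (ug_XK S) (ug_RK S) hW (RK_per S) (WK_XK S) (WK_RK S)
      (appr S ?_ (hW.dv_avg δ u) fun τ => ?_) θ t
    · exact hW.avg_mem hδ u isClosed_bd bd_convex fun τ => (rep_WK S τ).bd hu
    · have e1 : XK S τ (hW.avg δ u) = hW.avg δ (XK S τ u) :=
        hW.wint_comm _ _ _ _ _ fun σ => (WK_XK S σ τ u).symm
      have e2 : WK S (-τ) (hW.avg δ u) = hW.avg δ (WK S (-τ) u) :=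
        hW.wint_comm _ _ _ _ _ fun σ => hW.comm _ _ _
      rw [e1, e2]
      congr 1
      conv_rhs => rw [← hinv τ]
      rw [hW.neg_apply]
  have h2 := hW.tendsto_avg u
  have h3 := ((Dop (XK S) (RK S) θ t).continuous.tendsto u).comp h2
  refine tendsto_nhds_unique (h3.congr' ?_) h2
  filter_upwards [self_mem_nhdsWithin] with δ hδ
  exact h1 δ hδ

lemma Rep.indicator_iff {L : L2 ν →L[ℂ] L2 ν} {F : Ω → Ω} (h : Rep ν L F) {s : Set Ω}
    (hs : MeasurableSet s) :
    L (indicatorConstLp 2 hs (measure_ne_top ν s) (1 : ℂ)) =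
      indicatorConstLp 2 hs (measure_ne_top ν s) (1 : ℂ) ↔ F ⁻¹' s =ᵐ[ν] s := by
  have h0 : ∀ᵐ p ∂ν, (indicatorConstLp 2 hs (measure_ne_top ν s) (1 : ℂ) : L2 ν) p =
      s.indicator (fun _ => (1 : ℂ)) p := indicatorConstLp_coeFn
  have h1 := h.coe (indicatorConstLp 2 hs (measure_ne_top ν s) (1 : ℂ))
  constructor
  · intro e
    rw [e] at h1
    rw [Filter.eventuallyEq_set]
    filter_upwards [h0, h.ae h0, h1] with p a1 a2 a3
    rw [a1, a2] at a3
    by_cases b1 : p ∈ s <;> by_cases b2 : F p ∈ s <;> simp_all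
  · intro e
    rw [Filter.eventuallyEq_set] at e
    ext1
    filter_upwards [h0, h.ae h0, h1, e] with p a1 a2 a3 a4
    rw [a3, a1, a2]
    by_cases b1 : p ∈ s
    · rw [Set.indicator_of_mem b1, Set.indicator_of_mem (show F p ∈ s from a4.2 b1)]
    · rw [Set.indicator_of_notMem b1, 
        Set.indicator_of_notMem (show F p ∉ s from fun b2 => b1 (a4.1 b2))]

theorem analysisThm : AnalysisThm := by
  intro Ω _ ν _ S s hs hinv θ t
  refine ((rep_D S θ t).indicator_iff hs).1 (dop_fixed S ?_ (fun τ => ?_) θ t)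
  · filter_upwards [indicatorConstLp_coeFn (p := 2) (hs := hs) (hμs := measure_ne_top ν s)
      (c := (1 : ℂ))] with p hp
    rw [hp]
    by_cases b : p ∈ s <;> simp [b]
  · exact (((rep_XK S τ).comp (rep_WK S τ)).indicator_iff hs).2 (hinv τ)

end Crest.Agent.R103A
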