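import Crest.Agent.R103A.Hil

/-!
# Row 103 (analysis half): Fourier projections of a periodic unitary group
-/

set_option autoImplicit false
set_option linter.unusedSectionVars false
open MeasureTheory Filter Topology

noncomputable section

namespace Crest.Agent.R103A

variable {H : Type*} [NormedAddCommGroup H] [InnerProductSpace ℂ H] [CompleteSpace H]

variable {ρ : ℝ → H →L[ℂ] H}

theorem Proj_norm_pw (n : ℤ) (φ : ℝ) : ‖UG.pw n φ‖ = (2 * Real.pi)⁻¹ := by
  have e : -((n : ℂ) * φ) * Complex.I = ((-(n * φ) : ℝ) : ℂ) * Complex.I := by push_cast; ring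
  rw [UG.pw, norm_mul, e, Complex.norm_exp_ofReal_mul_I, mul_one, norm_inv, norm_mul,
    Complex.norm_real, Real.norm_eq_abs, abs_of_pos Real.pi_pos]
  simp

theorem Proj_pw_add (n : ℤ) (τ φ : ℝ) :
    UG.pw n τ = Complex.exp (n * φ * Complex.I) * UG.pw n (τ + φ) := by
  rw [UG.pw, UG.pw, mul_left_comm, ← Complex.exp_add]
  congr 2
  push_cast
  ring

theorem Proj_pw_periodic (n : ℤ) : Function.Periodic (UG.pw n) (2 * Real.pi) := by
  intro τ
  rw [Proj_pw_add n τ (2 * Real.pi)]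
  have : Complex.exp (n * ((2 * Real.pi : ℝ) : ℂ) * Complex.I) = 1 := by
    rw [← Complex.exp_int_mul_two_pi_mul_I n]
    congr 1
    push_cast
    ring
  rw [this, one_mul]

theorem Proj_periodic (hρ : UG ρ) (hper : ∀ v, ρ (2 * Real.pi) v = v) (v : H) :
    Function.Periodic (fun τ => ρ τ v) (2 * Real.pi) := fun τ => by
  simp only
  rw [hρ.add, hper]

theorem Proj_pw_shift (n j : ℤ) (φ : ℝ) :
    UG.pw (n + j) φ = UG.pw n φ * Complex.exp (-(j * φ) * Complex.I) := by
  rw [UG.pw, UG.pw, mul_assoc, ← Complex.exp_add]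
  congr 2
  push_cast
  ring

theorem Proj_int_pw (k : ℤ) :
    ∫ τ in (0 : ℝ)..(2 * Real.pi), UG.pw k τ = if k = 0 then 1 else 0 := by
  have hπ : (2 * Real.pi : ℂ) ≠ 0 := by
    have := Real.pi_pos.ne'
    simp [this]
  split_ifs with hk
  · subst hk
    simp only [UG.pw, Int.cast_zero, zero_mul, neg_zero, Complex.exp_zero, mul_one,
      intervalIntegral.integral_const, sub_zero, Complex.real_smul]
    push_cast
    exact mul_inv_cancel₀ hπ
  · have hc : -(k : ℂ) * Complex.I ≠ 0 := by simp [hk]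
    have e : ∀ τ : ℝ, UG.pw k τ = (2 * Real.pi : ℂ)⁻¹ * Complex.exp (-(k : ℂ) * Complex.I * τ) := by
      intro τ
      rw [UG.pw]
      congr 2
      ring
    simp only [e]
    rw [intervalIntegral.integral_const_mul, integral_exp_mul_complex hc]
    have : Complex.exp (-(k : ℂ) * Complex.I * ((2 * Real.pi : ℝ) : ℂ)) = 1 := by
      rw [← Complex.exp_int_mul_two_pi_mul_I (-k)]
      congr 1
      push_cast
      ring
    rw [this]
    simp

theorem Proj_conj_pw (n : ℤ) (τ : ℝ) : (starRingEnd ℂ) (UG.pw n τ) = UG.pw n (-τ) := by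
  simp only [UG.pw, map_mul, map_inv₀, ← Complex.exp_conj, map_neg, Complex.conj_ofReal,
    Complex.conj_I, map_intCast, map_ofNat]
  congr 2
  push_cast
  ring

theorem UG.norm_P_le (hρ : UG ρ) (n : ℤ) (v : H) : ‖hρ.P n v‖ ≤ ‖v‖ := by
  have h := hρ.norm_wint_le (UG.pw n) (UG.continuous_pw n) (2 * Real.pi) v
  simp only [Proj_norm_pw, intervalIntegral.integral_const, sub_zero, smul_eq_mul] at h
  rwa [mul_inv_cancel₀ (by positivity), abs_one, one_mul] at h

/-- shift the variable in the integral of a periodic function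
(`Function.Periodic.intervalIntegral_add_eq`) -/
theorem UG.apply_P (hρ : UG ρ) (hper : ∀ v, ρ (2 * Real.pi) v = v) (n : ℤ) (φ : ℝ) (v : H) :
    ρ φ (hρ.P n v) = Complex.exp (n * φ * Complex.I) • hρ.P n v := by
  have hg : Function.Periodic (fun τ => UG.pw n τ • ρ τ v) (2 * Real.pi) := fun τ => by
    simp only
    rw [Proj_pw_periodic n τ, hρ.add, hper]
  rw [UG.P, hρ.map_wint, hρ.wint_apply]
  have e : ∀ τ : ℝ, UG.pw n τ • ρ φ (ρ τ v) =
      Complex.exp (n * φ * Complex.I) • (fun τ => UG.pw n τ • ρ τ v) (τ + φ) := by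
    intro τ
    simp only
    rw [← hρ.add, add_comm φ τ, smul_smul, ← Proj_pw_add]
  simp only [e]
  rw [intervalIntegral.integral_smul,
    intervalIntegral.integral_comp_add_right (fun τ => UG.pw n τ • ρ τ v) φ, zero_add,
    add_comm (2 * Real.pi) φ, hg.intervalIntegral_add_eq φ 0, zero_add]

/-- from `apply_P`: `P m (P n v) = ((2π)⁻¹ ∫_0^{2π} exp (i (n - m) φ)) • P n v` -/
theorem UG.P_P (hρ : UG ρ) (hper : ∀ v, ρ (2 * Real.pi) v = v) (m n : ℤ) (v : H) :
    hρ.P m (hρ.P n v) = if m = n then hρ.P n v else 0 := by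
  conv_lhs => rw [UG.P, hρ.wint_apply]
  have e : ∀ τ : ℝ, UG.pw m τ • ρ τ (hρ.P n v) = UG.pw (m - n) τ • hρ.P n v := by
    intro τ
    rw [hρ.apply_P hper, smul_smul, sub_eq_add_neg, Proj_pw_shift]
    congr 3
    push_cast
    ring
  simp only [e]
  rw [intervalIntegral.integral_smul_const, Proj_int_pw]
  by_cases h : m = n
  · simp [h]
  · simp [h, sub_eq_zero]

/-- self-adjointness: substitute `φ ↦ 2π - φ` -/
theorem UG.inner_P_left (hρ : UG ρ) (hper : ∀ v, ρ (2 * Real.pi) v = v) (n : ℤ) (v w : H) :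
    inner ℂ (hρ.P n v) w = inner ℂ v (hρ.P n w) := by
  have hg : Function.Periodic (fun τ => UG.pw n τ * inner ℂ v (ρ τ w)) (2 * Real.pi) :=
    fun τ => by
      simp only
      rw [Proj_pw_periodic n τ, hρ.add, hper]
  rw [← inner_conj_symm, UG.P, hρ.inner_wint, hρ.inner_wint,
    ← intervalIntegral.intervalIntegral_conj]
  have e : ∀ τ : ℝ, (starRingEnd ℂ) (UG.pw n τ * inner ℂ w (ρ τ v)) =
      (fun τ => UG.pw n τ * inner ℂ v (ρ τ w)) (-τ) := by
    intro τ
    simp only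
    rw [map_mul, Proj_conj_pw, inner_conj_symm, hρ.inner_left]
  simp only [e]
  rw [intervalIntegral.integral_comp_neg (fun τ => UG.pw n τ * inner ℂ v (ρ τ w)), neg_zero]
  have := hg.intervalIntegral_add_eq (-(2 * Real.pi)) 0
  rwa [neg_add_cancel, zero_add] at this

theorem UG.inner_P_P (hρ : UG ρ) (hper : ∀ v, ρ (2 * Real.pi) v = v) (n : ℤ) (v w : H) :
    inner ℂ (hρ.P n v) (hρ.P n w) = inner ℂ v (hρ.P n w) := by
  rw [hρ.inner_P_left hper, hρ.P_P hper, if_pos rfl]

/-- Bessel's inequality, for an injective family of indices: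
`0 ≤ ‖v - ∑ P n v‖² = ‖v‖² - ∑ ‖P n v‖²` -/
theorem UG.bessel (hρ : UG ρ) (hper : ∀ v, ρ (2 * Real.pi) v = v) (v : H) (k : ℤ)
    (S : Finset ℤ) : ∑ n ∈ S, ‖hρ.P (n + k) v‖ ^ 2 ≤ ‖v‖ ^ 2 := by
  set u : H := ∑ n ∈ S, hρ.P (n + k) v with hu
  have h1 : inner ℂ v u = ((∑ n ∈ S, ‖hρ.P (n + k) v‖ ^ 2 : ℝ) : ℂ) := by
    rw [hu, inner_sum]
    push_cast
    refine Finset.sum_congr rfl fun n _ => ?_
    rw [← hρ.inner_P_P hper, inner_self_eq_norm_sq_to_K]
    rfl
  have h2 : inner ℂ u u = inner ℂ v u := by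
    conv_lhs => rw [hu, sum_inner]
    conv_rhs => rw [hu, inner_sum]
    refine Finset.sum_congr rfl fun m hm => ?_
    rw [hρ.inner_P_left hper, map_sum]
    congr 1
    rw [Finset.sum_eq_single m]
    · rw [hρ.P_P hper, if_pos rfl]
    · intro n _ hnm
      rw [hρ.P_P hper, if_neg (by omega)]
    · exact fun h => absurd hm h
  have h3 : ‖u‖ ^ 2 = ∑ n ∈ S, ‖hρ.P (n + k) v‖ ^ 2 := by
    rw [h1, inner_self_eq_norm_sq_to_K] at h2
    have : ((‖u‖ ^ 2 : ℝ) : ℂ) = ((∑ n ∈ S, ‖hρ.P (n + k) v‖ ^ 2 : ℝ) : ℂ) := by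
      rw [← h2]
      push_cast
      rfl
    exact_mod_cast this
  have h4 : ‖u‖ ^ 2 ≤ ‖v‖ * ‖u‖ := by
    have := norm_inner_le_norm (𝕜 := ℂ) v u
    rw [h1, ← h3, Complex.norm_real, Real.norm_eq_abs, abs_of_nonneg (sq_nonneg _)] at this
    exact this
  rw [← h3]
  nlinarith [norm_nonneg u, norm_nonneg v, sq_nonneg (‖u‖ - ‖v‖)]

/-- completeness: `φ ↦ ⟪L v, L (ρ φ v)⟫` is continuous and `2π`-periodic and all its Fourier
coefficients vanish (`UG.map_wint`), so it vanishes (lift it to `AddCircle (2π)`,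
`fourierCoeff_eq_intervalIntegral`, `hasSum_fourier_series_of_summable`); take `φ = 0`. -/
theorem UG.eq_zero_of_P (hρ : UG ρ) (hper : ∀ v, ρ (2 * Real.pi) v = v) (L : H →L[ℂ] H) (v : H)
    (h : ∀ n, L (hρ.P n v) = 0) : L v = 0 := by
  have hπ : 0 < 2 * Real.pi := by positivity
  have : Fact (0 < 2 * Real.pi) := ⟨hπ⟩
  let f : ℝ → ℂ := fun φ => inner ℂ (L v) (L (ρ φ v))
  have hf : Function.Periodic f (2 * Real.pi) := fun τ => by
    simp only [f]
    rw [hρ.add, hper]
  have hfc : Continuous f := continuous_const.inner (L.continuous.comp (hρ.cont v))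
  have hint : ∀ n : ℤ, ∫ τ in (0 : ℝ)..(2 * Real.pi), UG.pw n τ * f τ = 0 := by
    intro n
    have h1 := h n
    rw [UG.P, hρ.map_wint] at h1
    have h2 := (innerSL ℂ (L v)).intervalIntegral_comp_comm (μ := volume) (a := 0)
      (b := 2 * Real.pi) (f := fun τ => UG.pw n τ • L (ρ τ v))
      (((UG.continuous_pw n).smul (L.continuous.comp (hρ.cont v))).intervalIntegrable _ _)
    simp only [innerSL_apply_apply, inner_smul_right] at h2
    rw [h1, inner_zero_right] at h2
    exact h2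
  let F : C(AddCircle (2 * Real.pi), ℂ) := ⟨hf.lift, hfc.quotient_liftOn' _⟩
  have hF : ∀ x : ℝ, F (x : AddCircle (2 * Real.pi)) = f x := fun x => hf.lift_coe x
  have hcoef : ∀ n : ℤ, fourierCoeff F n = 0 := by
    intro n
    rw [fourierCoeff_eq_intervalIntegral _ n 0, zero_add]
    have e : ∀ x : ℝ, @fourier (2 * Real.pi) (-n) x • F x =
        (2 * Real.pi : ℂ) * (UG.pw n x * f x) := by
      intro x
      have hπ' : (2 * Real.pi : ℂ) ≠ 0 := by exact_mod_cast hπ.ne'
      rw [hF, fourier_coe_apply, UG.pw, smul_eq_mul, ← mul_assoc, ← mul_assoc,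
        mul_inv_cancel₀ hπ', one_mul]
      congr 2
      push_cast
      field_simp
    simp only [e]
    rw [intervalIntegral.integral_const_mul, hint, mul_zero, smul_zero]
  have hs := hasSum_fourier_series_of_summable (f := F)
    (by rw [show fourierCoeff F = 0 from funext hcoef]; exact summable_zero)
  simp only [hcoef, zero_smul] at hs
  have hF0 : F = 0 := hs.unique hasSum_zero
  have h0 : f 0 = 0 := by rw [← hF, hF0]; rfl
  simp only [f, hρ.zero] at h0
  exact inner_self_eq_zero.1 h0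

/-- comparison of Fourier coefficients (`UG.inner_wint`) -/
theorem UG.inner_P_shift (hρ : UG ρ) {a a' b b' : H} (j k : ℤ)
    (h : ∀ φ : ℝ, Complex.exp (-(j * φ) * Complex.I) * inner ℂ a (ρ φ a') =
      Complex.exp (-(k * φ) * Complex.I) * inner ℂ b (ρ φ b')) (n : ℤ) :
    inner ℂ a (hρ.P (n + j) a') = inner ℂ b (hρ.P (n + k) b') := by
  rw [UG.P, UG.P, hρ.inner_wint, hρ.inner_wint]
  refine intervalIntegral.integral_congr fun φ _ => ?_
  simp only [Proj_pw_shift, mul_assoc, h φ]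

/-- differentiation under the integral sign
(`intervalIntegral.hasDerivAt_integral_of_dominated_loc_of_deriv_le`, `Dv.hasDerivAt`) -/
theorem UG.dv_P (hρ : UG ρ) {X : ℝ → H →L[ℂ] H} (hX : UG X) {v α β : H}
    (h : ∀ φ : ℝ, Dv X (ρ φ v) (Complex.exp (-φ * Complex.I) • ρ φ α +
      Complex.exp (φ * Complex.I) • ρ φ β)) (n : ℤ) :
    Dv X (hρ.P n v) (hρ.P (n + 1) α + hρ.P (n - 1) β) := by
  let y : ℝ → H := fun φ => Complex.exp (-φ * Complex.I) • ρ φ α +
    Complex.exp (φ * Complex.I) • ρ φ β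
  have hyc : Continuous y :=
    (Continuous.smul (by fun_prop) (hρ.cont α)).add (Continuous.smul (by fun_prop) (hρ.cont β))
  have hy : ∀ φ, ‖y φ‖ ≤ ‖α‖ + ‖β‖ := by
    intro φ
    refine (norm_add_le _ _).trans (le_of_eq ?_)
    have e : -(φ : ℂ) * Complex.I = ((-φ : ℝ) : ℂ) * Complex.I := by push_cast; ring
    rw [norm_smul, norm_smul, e, Complex.norm_exp_ofReal_mul_I, Complex.norm_exp_ofReal_mul_I,
      hρ.norm, hρ.norm, one_mul, one_mul]
  have hFc : ∀ t, Continuous fun φ => UG.pw n φ • X t (ρ φ v) := fun t =>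
    (UG.continuous_pw n).smul ((X t).continuous.comp (hρ.cont v))
  have key := (intervalIntegral.hasDerivAt_integral_of_dominated_loc_of_deriv_le (μ := volume)
    (a := 0) (b := 2 * Real.pi) (F := fun (t : ℝ) φ => UG.pw n φ • X t (ρ φ v))
    (F' := fun (t : ℝ) φ => UG.pw n φ • X t (y φ)) (x₀ := 0) (s := Set.univ)
    (bound := fun _ => (2 * Real.pi)⁻¹ * (‖α‖ + ‖β‖)) univ_mem
    (Eventually.of_forall fun t => (hFc t).aestronglyMeasurable)
    ((hFc 0).intervalIntegrable _ _)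
    (((UG.continuous_pw n).smul ((X 0).continuous.comp hyc)).aestronglyMeasurable)
    (Eventually.of_forall fun φ _ t _ => by
      rw [norm_smul, Proj_norm_pw, hX.norm]
      exact mul_le_mul_of_nonneg_left (hy φ) (by positivity))
    intervalIntegrable_const
    (Eventually.of_forall fun φ _ t _ => ((h φ).hasDerivAt hX t).const_smul (UG.pw n φ))).2
  have e1 : (fun t => X t (hρ.P n v)) =
      fun t => ∫ φ in (0 : ℝ)..(2 * Real.pi), UG.pw n φ • X t (ρ φ v) := by
    funext t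
    rw [UG.P, hρ.map_wint]
  have e2 : hρ.P (n + 1) α + hρ.P (n - 1) β =
      ∫ φ in (0 : ℝ)..(2 * Real.pi), UG.pw n φ • X 0 (y φ) := by
    rw [UG.P, UG.P, hρ.wint_apply, hρ.wint_apply, ← intervalIntegral.integral_add
      ((hρ.cont_smul (UG.continuous_pw _) α).intervalIntegrable _ _)
      ((hρ.cont_smul (UG.continuous_pw _) β).intervalIntegrable _ _)]
    refine intervalIntegral.integral_congr fun φ _ => ?_
    simp only [hX.zero, y, smul_add, smul_smul, sub_eq_add_neg, Proj_pw_shift]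
    simp
  rw [Dv, e1, e2]
  exact key

end Crest.Agent.R103A
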